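import Vale.Agent.P150.Beta1.Rule.Fields

/-!
# Sizes of the matrices representing the increments
-/

namespace Vale.Agent.P150.Beta1.Rule

open Finset Function Real Vale.Agent.P150.Beta1.Algebra

/-- A crude bound of the Stein weight. -/
lemma abs_steinG_le (a b Δ : ℝ) : |steinG a b Δ| ≤ 4 * exp (|Δ| / 2) := by
  have hc : 0 < 2 * cosh a * cosh b := mul_pos (mul_pos two_pos (cosh_pos a)) (cosh_pos b)
  have hsub : cosh (a - b) ≤ 2 * (cosh a * cosh b) := by
    have h1 : cosh (a + b) + cosh (a - b) = 2 * (cosh a * cosh b) := by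
      rw [cosh_add, cosh_sub]; ring
    linarith [one_le_cosh (a + b)]
  have hpt : ∀ r ∈ Set.uIoc (-1 : ℝ) 1,
      ‖exp (-(a - b) * r + Δ * (1 - r ^ 2) / 2)‖ ≤ exp (|Δ| / 2) * (2 * cosh (a - b)) := by
    intro r hr
    rw [Set.uIoc_of_le (by norm_num)] at hr
    have hr2 : |r| ≤ 1 := abs_le.2 ⟨hr.1.le, hr.2⟩
    rw [norm_eq_abs, abs_exp, exp_add, mul_comm (exp _) (exp _)]
    refine mul_le_mul (exp_le_exp.2 ?_) ?_ (exp_pos _).le (exp_pos _).le
    · have h1 : 0 ≤ 1 - r ^ 2 := sub_nonneg.2 ((sq_le_one_iff_abs_le_one _).2 hr2)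
      have h2 : Δ * (1 - r ^ 2) ≤ |Δ| * (1 - r ^ 2) := mul_le_mul_of_nonneg_right (le_abs_self _) h1
      nlinarith [mul_nonneg (abs_nonneg Δ) (sq_nonneg r)]
    · have h1 : -(a - b) * r ≤ |a - b| := by
        refine (le_abs_self _).trans ?_
        rw [abs_mul, abs_neg]
        exact mul_le_of_le_one_right (abs_nonneg _) hr2
      refine (exp_le_exp.2 h1).trans ?_
      have e : 2 * cosh (a - b) = exp (a - b) + exp (-(a - b)) := by rw [cosh_eq]; ring
      rw [e]
      rcases abs_cases (a - b) with ⟨h, -⟩ | ⟨h, -⟩ <;> rw [h]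
      · linarith [exp_pos (-(a - b))]
      · linarith [exp_pos (a - b)]
  have hint := intervalIntegral.norm_integral_le_of_norm_le_const hpt
  rw [norm_eq_abs, show |(1 : ℝ) - -1| = 2 by norm_num] at hint
  rw [steinG, abs_div, abs_of_pos hc, div_le_iff₀ hc]
  refine hint.trans ?_
  nlinarith [mul_le_mul_of_nonneg_left hsub (exp_pos (|Δ| / 2)).le]

variable {ι : Type*} [Fintype ι] [DecidableEq ι]

/-- The size of `L_k` as an expression. -/
noncomputable def lSize (β : ℝ) (k : ℕ) : ℝ := (3 * (4 * exp (β ^ 2 / 2) + β ^ 2) ^ 2) ^ k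

omit [DecidableEq ι] in
lemma abs_ampDelta_le (β : ℝ) (J : ι → ι → ℝ) (y : ι → ℝ) (x : ι → Bool) (k : ℕ) :
    |ampDelta β J y (spins x) k| ≤ β ^ 2 := by
  obtain ⟨a0, a1⟩ := qav_mem (abs_ampA_le β J y x k)
  obtain ⟨b0, b1⟩ := qav_mem (abs_ampA_le β J y x (k + 1))
  rw [ampDelta, abs_mul, abs_of_nonneg (sq_nonneg β)]
  exact mul_le_of_le_one_right (sq_nonneg β) (abs_le.2 ⟨by linarith, by linarith⟩)

omit [DecidableEq ι] in
/-- Bound of the size of `L_k`. -/
lemma size_ampL (β : ℝ) (J : ι → ι → ℝ) (y : ι → ℝ) (x : ι → Bool) (k : ℕ) :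
    ((ampCoef β J y (spins x)).L k).size ≤ lSize β k := by
  have hG : 1 ≤ 4 * exp (β ^ 2 / 2) + β ^ 2 := by
    nlinarith [one_le_exp (div_nonneg (sq_nonneg β) (by norm_num : (0 : ℝ) ≤ 2)), sq_nonneg β]
  refine Coef.size_L_le _ hG ?_ (fun j => ?_) (fun j => ?_) (fun j => ?_) k
  · exact (pi_norm_le_iff_of_nonneg zero_le_one).2 fun i => abs_one_sub_tanh_sq _
  · refine (pi_norm_le_iff_of_nonneg (zero_le_one.trans hG)).2 fun i => ?_
    rw [norm_eq_abs]
    refine (abs_steinG_le _ _ _).trans ?_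
    have := exp_le_exp.2 (div_le_div_of_nonneg_right (abs_ampDelta_le β J y x j) two_pos.le)
    nlinarith [sq_nonneg β]
  · exact (abs_ampDelta_le β J y x j).trans (le_add_of_nonneg_left (by positivity))
  · exact (abs_onsager_le β (abs_ampA_le β J y x j)).trans (le_add_of_nonneg_left (by positivity))

omit [DecidableEq ι] in
lemma lSize_nonneg (β : ℝ) (k : ℕ) : 0 ≤ lSize β k := by rw [lSize]; positivity

end Vale.Agent.P150.Beta1.Rule
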