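import Vale.Agent.P150.Beta1.Rule.Pairing
import Vale.Agent.P150.Beta1.Rule.Size
import Vale.Agent.P150.Beta1.Statements
import Vale.Agent.P150.Beta1.Tests

/-!
# Consequences of the rule: tests, energy step, gradient bound

All three follow from the rule by a degree count: the matrices of the increments have fewer
letters than the chain word of the tested field.
-/

namespace Vale.Agent.P150.Beta1.Rule

open Finset Function Real Vale.Agent.P150.Beta1.Algebra

variable {ι : Type*} [Fintype ι] [DecidableEq ι] {β C : ℝ} {J : ι → ι → ℝ}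

lemma goodWords_mono {m m' : ℕ} (h : GoodWords β m' C J) (hm : m ≤ m') : GoodWords β m C J :=
  ⟨h.1, h.2.1, h.2.2.1, fun d l hl => h.2.2.2 d l (hl.trans hm)⟩

/-- A slow scalar times a function of `ampZ k`: test norm, and pairing with short expressions. -/
lemma exists_test_bound (β C : ℝ) (k : ℕ) (S : ℝ) : ∃ C1, 0 ≤ C1 ∧ ∀ (n : ℕ)
    (J : Fin n → Fin n → ℝ) (y' : Fin n → ℝ) (s : (Fin n → Bool) → ℝ) (φ φ₁ φ₂ : ℝ → ℝ)
    (x : Fin n → Bool), 1 ≤ n → GoodWords β (2 * k + 1) C J → SlowScalar C s →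
    (∀ t, HasDerivAt φ (φ₁ t) t ∧ HasDerivAt φ₁ (φ₂ t) t ∧ |φ₁ t| ≤ C ∧ |φ₂ t| ≤ C) →
    (∀ z, ∑ i, φ (ampZ β J y' (spins z) k i) ^ 2 ≤ C * n) →
    testSq (fun z i => s z * φ (ampZ β J y' (spins z) k i)) x ≤ C1 * n ∧
    ∀ X : Expr (Fin n), X.deg ≤ k → X.size ≤ S →
      |tracePair (X.mat J) (fun z i => s z * φ (ampZ β J y' (spins z) k i)) x| ≤ C1 * √n := by
  obtain ⟨R, hR0, hR⟩ := exists_zgrad β C k
  set E : ℝ := 2 * (36 * C ^ 2 * zQuart β C k R + C ^ 2 * R) with hE
  set KW : ℝ := 2 * (C ^ 2 * (max C 1 ^ (k + 1) * ((1 + β ^ 2) ^ k) ^ 2) + E) with hKW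
  set KX : ℝ := max C 1 ^ k * S ^ 2 with hKX
  set T1 : ℝ := C + 2 * (C * (2 * C + 8 * KW) + KW) with hT1
  set SX : ℝ := C * ((1 + β ^ 2) ^ k * S) with hSX
  refine ⟨max (max T1 (3 * √(C * KX * T1) + (√(KX * E) + √(C * SX ^ 2)))) 0, le_max_right _ _,
    fun n J y' s φ φ₁ φ₂ x hn hG hs hφ hφn => ?_⟩
  have : Nonempty (Fin n) := Fin.pos_iff_nonempty.1 hn
  have hC := goodWords_nonneg hG
  have hn1 : (1 : ℝ) ≤ n := by exact_mod_cast hn
  set u := fun z => ampZ β J y' (spins z) k with hu
  set W := fun z i => φ (u z i) with hW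
  have hz : ZGrad β J y' x k R := hR _ _ J y' x (by omega) hG
  set P := (gradE β J y' (spins x) k)
  have hlip : ∀ a b, |φ₁ a - φ₁ b| ≤ C * |a - b| := fun a b => by
    have h := (convex_univ (𝕜 := ℝ) (E := ℝ)).norm_image_sub_le_of_norm_hasDerivWithin_le
      (f := φ₁) (f' := φ₂) (C := C) (fun t _ => (hφ t).2.1.hasDerivWithinAt)
      (fun t _ => by rw [norm_eq_abs]; exact (hφ t).2.2.2) (Set.mem_univ b) (Set.mem_univ a)
    simpa using h
  have hcomp := jac_comp3 (fun a _ _ => φ a) u u u x (fun i => φ₁ (u x i))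
    (fun _ => 0) (fun _ => 0) (G := C) (fun i z => by
      have := taylor_one (fun t => (hφ t).1) hlip hC (u x i) (u z i)
      simp only [zero_mul, sub_zero]
      nlinarith [sq_nonneg (u z i - u x i), mul_nonneg hC (sq_nonneg (u z i - u x i))])
  have hz0 : (Matrix.diagonal (fun _ : Fin n => (0 : ℝ))) = 0 := Matrix.diagonal_zero
  rw [hz0, Matrix.zero_mul, add_zero, add_zero] at hcomp
  set e := fun i => φ₁ (u x i) with he
  have hrem : frob (jac W x - Matrix.diagonal e * P.mat J) ≤ E := by
    have h1 := frob_add_le (jac W x - Matrix.diagonal e * jac u x)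
      (Matrix.diagonal e * (jac u x - P.mat J))
    rw [Matrix.mul_sub, sub_add_sub_cancel, ← Matrix.mul_sub] at h1
    have h2 := (frob_diag_mul_le (e := e) (G := C) (fun i => (hφ _).2.2.1) _).trans
      (mul_le_mul_of_nonneg_left (a := C ^ 2) (hz : frob (jac u x - P.mat J) ≤ R) (sq_nonneg C))
    have h3 := hcomp.trans (mul_le_mul_of_nonneg_left
      (add_le_add (add_le_add (hz.quart_le hG (by omega)) (hz.quart_le hG (by omega)))
        (hz.quart_le hG (by omega))) (by positivity))
    rw [hE]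
    linarith
  have hsize : P.size ≤ (1 + β ^ 2) ^ k := size_gradE β J y' (spins x) (abs_spins_le x) k
  have hact : Act KW (jac W x) := by
    have := ((expr_act hG P (deg_gradE β J y' (spins x) k) hsize).diag_mul (e := e)
      (fun i => (hφ _).2.2.1)).add (act_of_frob hrem)
    rwa [add_sub_cancel] at this
  have hKW0 : 0 ≤ KW := (sum_nonneg fun _ _ => sq_nonneg _).trans (hact.row_le ⟨0, hn⟩)
  have hWsq : ∑ i, W x i ^ 2 ≤ C * n := hφn x
  have hs1 : |s x| ≤ 1 := (hs x).1
  have hs2 : scGrad s x ≤ C := by rw [scGrad, Fintype.card_fin]; exact (hs x).2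
  have hscal := jac_scalar_mul s W x (W := C) (K := KW) (by rw [Fintype.card_fin]; exact hWsq)
    hact.frob_le
  have hssq : s x ^ 2 ≤ 1 := (sq_le_one_iff_abs_le_one _).2 hs1
  have hT : testSq (fun z i => s z * W z i) x ≤ T1 * n := by
    rw [testSq_eq]
    have h1 : ∑ i, (s x * W x i) ^ 2 ≤ C * n := by
      simp only [mul_pow, ← mul_sum]
      exact (mul_le_of_le_one_left (sum_nonneg fun _ _ => sq_nonneg _) hssq).trans hWsq
    have h2 := frob_add_le (jac (fun z i => s z * W z i) x - s x • jac W x) (s x • jac W x)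
    rw [sub_add_cancel, frob_smul] at h2
    have h3 : s x ^ 2 * frob (jac W x) ≤ KW * n := by
      have h := hact.frob_le
      rw [Fintype.card_fin] at h
      exact (mul_le_of_le_one_left (frob_nonneg _) hssq).trans h
    have h4 : scGrad s x * (2 * C + 8 * KW) ≤ C * (2 * C + 8 * KW) :=
      mul_le_mul_of_nonneg_right hs2 (by positivity)
    have h5 : C * (2 * C + 8 * KW) ≤ C * (2 * C + 8 * KW) * n :=
      le_mul_of_one_le_right (by positivity) hn1
    rw [hT1]
    nlinarith
  have hT10 : 0 ≤ T1 := by rw [hT1]; positivity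
  refine ⟨hT.trans (mul_le_mul_of_nonneg_right ((le_max_left _ _).trans (le_max_left _ _))
    (Nat.cast_nonneg _)), fun X hXd hXs => ?_⟩
  have hXA : Act KX (X.mat J) := expr_act hG X hXd hXs
  have hKX0 : 0 ≤ KX := by rw [hKX]; positivity
  have hsc := tracePair_scalar hXA s W x
  rw [Fintype.card_fin] at hsc
  have hWtest : testSq W x ≤ T1 * n := by
    rw [testSq_eq, hT1]
    have h := hact.frob_le
    rw [Fintype.card_fin] at h
    nlinarith [mul_nonneg (mul_nonneg hC (show 0 ≤ 2 * C + 8 * KW by positivity))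
      (Nat.cast_nonneg (α := ℝ) n), mul_nonneg hKW0 (Nat.cast_nonneg (α := ℝ) n)]
  have hsc2 : √(scGrad s x * KX * testSq W x / n) ≤ √(C * KX * T1) := by
    refine Real.sqrt_le_sqrt ((div_le_iff₀ (by linarith)).2 ?_)
    calc scGrad s x * KX * testSq W x ≤ C * KX * (T1 * n) :=
          mul_le_mul (mul_le_mul_of_nonneg_right hs2 hKX0) hWtest (testSq_nonneg _ _)
            (mul_nonneg hC hKX0)
      _ = C * KX * T1 * n := by ring
  have hsplit : tracePair (X.mat J) W x
      = (∑ i, ((jac W x - Matrix.diagonal e * P.mat J) * X.mat J) i i)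
        + ∑ i, (Expr.mul (.diag e) (.mul P X)).mat J i i := by
    rw [tracePair_eq_trace, ← sum_add_distrib]
    refine sum_congr rfl fun i _ => ?_
    simp only [Expr.mat, Matrix.sub_mul, Matrix.sub_apply, Matrix.mul_assoc]
    ring
  have hE1 := abs_sum_le_sqrt (u := fun _ : Fin n => (1 : ℝ)) ((diag_mul_sq_le hXA
    (jac W x - Matrix.diagonal e * P.mat J)).trans (mul_le_mul_of_nonneg_left hrem hKX0))
  have hsz : (Expr.mul (.diag e) (.mul P X)).size ≤ SX := by
    rw [hSX]
    simp only [Expr.size]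
    refine mul_le_mul ((pi_norm_le_iff_of_nonneg hC).2 fun i => by
      rw [norm_eq_abs]; exact (hφ _).2.2.1) (mul_le_mul hsize hXs X.size_nonneg (by positivity))
      (mul_nonneg P.size_nonneg X.size_nonneg) hC
  have hE2 := abs_weighted_diag_le hG (Expr.mul (.diag e) (.mul P X))
    (by simp only [Expr.deg]; have hP : P.deg ≤ k + 1 := deg_gradE β J y' (spins x) k; omega) hsz
    (fun _ => 1)
  have hfree : ∀ i, (Expr.mul (.diag e) (.mul P X)).free β i = 0 := fun i => by
    rw [free_diag_mul, show (Expr.mul P X).free β i = 0 from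
      free_chain_mul_eq_zero _ X (by simpa using hXd) i, mul_zero]
  simp only [hfree, mul_zero, sum_const_zero, sub_zero, one_mul, one_pow, sum_const, card_univ,
    Fintype.card_fin, nsmul_one] at hE1 hE2
  have hW0 : |tracePair (X.mat J) W x| ≤ (√(KX * E) + √(C * SX ^ 2)) * √n := by
    rw [hsplit, add_mul]
    exact (abs_add_le _ _).trans (add_le_add hE1 hE2)
  have hsn : (1 : ℝ) ≤ √n := Real.one_le_sqrt.2 hn1
  calc |tracePair (X.mat J) (fun z i => s z * W z i) x|
      ≤ |tracePair (X.mat J) (fun z i => s z * W z i) x - s x * tracePair (X.mat J) W x|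
        + |s x * tracePair (X.mat J) W x| :=
        by simpa using abs_add_le (tracePair (X.mat J) (fun z i => s z * W z i) x
          - s x * tracePair (X.mat J) W x) (s x * tracePair (X.mat J) W x)
    _ ≤ 3 * √(C * KX * T1) * √n + (√(KX * E) + √(C * SX ^ 2)) * √n := by
        refine add_le_add ?_ ?_
        · exact (hsc.trans (mul_le_mul_of_nonneg_left hsc2 (by norm_num))).trans
            (le_mul_of_one_le_right (by positivity) hsn)
        · rw [abs_mul]
          exact (mul_le_of_le_one_left (abs_nonneg _) hs1).trans hW0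
    _ ≤ _ := by
        rw [← add_mul]
        exact mul_le_mul_of_nonneg_right ((le_max_right _ _).trans (le_max_left _ _))
          (Real.sqrt_nonneg _)

/-- Tests of one increment. -/
lemma tests_one (hrule : RuleStatement β) (j k : ℕ) (hjk : j ≤ k) :
    ∃ m : ℕ, ∀ C, ∃ C', 0 ≤ C' ∧ ∀ (n : ℕ) (J : Fin n → Fin n → ℝ) (y y' : Fin n → ℝ)
      (F s : (Fin n → Bool) → ℝ) (φ φ₁ φ₂ : ℝ → ℝ),
    GoodWords β m C J → (∀ x, 0 < F x) → SlowScalar C s →
    (∀ t, HasDerivAt φ (φ₁ t) t ∧ HasDerivAt φ₁ (φ₂ t) t ∧ |φ₁ t| ≤ C ∧ |φ₂ t| ≤ C) →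
    (∀ x, ∑ i, φ (ampZ β J y' (spins x) k i) ^ 2 ≤ C * n) →
      |tmean (gibbs J y) F
          (fun x => s x * ∑ i, φ (ampZ β J y' (spins x) k i) * ampD β J y (spins x) j i)|
        ≤ C' * √n * √(tdir (gibbs J y) F + 1) ∧
      (j < k → |tmean (gibbs J y) F (fun x => s x * ∑ i,
            act J (fun l => φ (ampZ β J y' (spins x) k l)) i * ampD β J y (spins x) j i)|
        ≤ C' * √n * √(tdir (gibbs J y) F + 1)) := by
  obtain ⟨m, hm⟩ := hrule j
  refine ⟨max m (2 * k + 2), fun C => ?_⟩
  obtain ⟨C0, hC0⟩ := hm C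
  obtain ⟨C1, hC1, h1⟩ := exists_test_bound β C k (max (lSize β j) 1 * 1)
  set M := max C 1 with hM
  set A : ℝ := |C0| * √((M + 1) * C1 + 1) + C1 with hA
  refine ⟨A, by positivity, fun n J y y' F s φ φ₁ φ₂ hG hF hs hφ hφn => ?_⟩
  have hρ : ∀ x, 0 < gibbs J y x := fun x => gibbs_pos x
  rcases Nat.eq_zero_or_pos n with rfl | hn
  · simp [tmean, mean]
  have hGm := goodWords_mono hG (le_max_left m (2 * k + 2))
  have hGk : GoodWords β (2 * k + 1) C J :=
    goodWords_mono hG (le_trans (Nat.le_succ _) (le_max_right m (2 * k + 2)))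
  have hn1 : (1 : ℝ) ≤ n := by exact_mod_cast hn
  set Φ := fun z i => s z * φ (ampZ β J y' (spins z) k i) with hΦ
  have hD : 0 ≤ tdir (gibbs J y) F := by
    refine div_nonneg ?_ (meanF_pos hρ hF).le
    rw [dirichlet_eq hG.1 hG.2.1]
    exact sum_nonneg fun i _ => sum_nonneg fun x _ => mul_nonneg (hρ x).le (sq_nonneg _)
  have hsD : (1 : ℝ) ≤ √(tdir (gibbs J y) F + 1) := Real.one_le_sqrt.2 (by linarith)
  have key : ∀ (Ψ : (Fin n → Bool) → Fin n → ℝ),
      (∀ x, testSq Ψ x ≤ (M + 1) * C1 * n) →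
      (∀ x, |tracePair (ampL β J y (spins x) j) Ψ x| ≤ C1 * √n) →
      |tmean (gibbs J y) F (fun x => ∑ i, ampD β J y (spins x) j i * Ψ x i)|
        ≤ A * √n * √(tdir (gibbs J y) F + 1) := by
    intro Ψ hΨ htr
    have hr := hC0 n J y F Ψ hGm hF
    have ht : |tmean (gibbs J y) F (fun x => tracePair (ampL β J y (spins x) j) Ψ x)|
        ≤ C1 * √n :=
      (abs_tmean_le hρ hF _).trans ((tmean_mono hρ hF htr).trans (le_of_eq (tmean_const hρ hF _)))
    have hq : tmean (gibbs J y) F (testSq Ψ) + 1 ≤ ((M + 1) * C1 + 1) * n := by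
      have := (tmean_mono hρ hF hΨ).trans (le_of_eq (tmean_const hρ hF _))
      linarith
    have hr2 : C0 * √(tdir (gibbs J y) F + 1) * √(tmean (gibbs J y) F (testSq Ψ) + 1)
        ≤ |C0| * √((M + 1) * C1 + 1) * √n * √(tdir (gibbs J y) F + 1) := by
      calc C0 * √(tdir (gibbs J y) F + 1) * √(tmean (gibbs J y) F (testSq Ψ) + 1)
          ≤ |C0| * √(tdir (gibbs J y) F + 1) * √(((M + 1) * C1 + 1) * n) :=
            mul_le_mul (mul_le_mul_of_nonneg_right (le_abs_self _) (Real.sqrt_nonneg _))
              (Real.sqrt_le_sqrt hq) (Real.sqrt_nonneg _) (by positivity)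
        _ = _ := by rw [Real.sqrt_mul (by positivity)]; ring
    have ht2 : C1 * √n ≤ C1 * √n * √(tdir (gibbs J y) F + 1) :=
      le_mul_of_one_le_right (by positivity) hsD
    have := abs_le.1 (hr.trans hr2)
    have := abs_le.1 ht
    rw [hA, add_mul, add_mul, abs_le]
    constructor <;> linarith
  have hJ : Act M (Matrix.of J) := by
    have := expr_act hG .coup (d := 1) (S := 1) le_rfl le_rfl
    simpa [Expr.mat] using this
  have hb : ∀ x, testSq Φ x ≤ C1 * n ∧ ∀ X : Expr (Fin n), X.deg ≤ k →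
      X.size ≤ max (lSize β j) 1 * 1 → |tracePair (X.mat J) Φ x| ≤ C1 * √n :=
    fun x => h1 n J y' s φ φ₁ φ₂ x hn hGk hs hφ hφn
  have hsz : ∀ x, ((ampCoef β J y (spins x)).L j).size ≤ max (lSize β j) 1 := fun x =>
    (size_ampL β J y x j).trans (le_max_left _ _)
  refine ⟨?_, fun hlt => ?_⟩
  · have h := key Φ (fun x => (hb x).1.trans (mul_le_mul_of_nonneg_right
        (le_mul_of_one_le_left hC1 (le_add_of_nonneg_left (le_max_of_le_right zero_le_one)))
        (Nat.cast_nonneg _)))
      fun x => by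
        rw [ampL_eq]
        exact (hb x).2 _ ((Coef.deg_L _ j).trans hjk) (by rw [mul_one]; exact hsz x)
    have e : ∀ x, ∑ i, ampD β J y (spins x) j i * Φ x i
        = s x * ∑ i, φ (ampZ β J y' (spins x) k i) * ampD β J y (spins x) j i := fun x => by
      simp only [hΦ, mul_sum]
      exact sum_congr rfl fun i _ => by ring
    simpa only [e] using h
  · have h := key (fun z i => act J (Φ z) i) (fun x => by
        refine (testSq_act_le hJ Φ x).trans ((mul_le_mul_of_nonneg_left (hb x).1
          (le_max_of_le_right zero_le_one)).trans ?_)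
        rw [← mul_assoc]
        exact mul_le_mul_of_nonneg_right (mul_le_mul_of_nonneg_right (le_add_of_nonneg_right
          zero_le_one) hC1) (Nat.cast_nonneg _))
      fun x => by
        rw [tracePair_act, ampL_eq]
        have hd : (Expr.mul ((ampCoef β J y (spins x)).L j) .coup).deg ≤ k := by
          have := (ampCoef β J y (spins x)).deg_L j
          simp only [Expr.deg]
          omega
        exact (hb x).2 (Expr.mul ((ampCoef β J y (spins x)).L j) .coup) hd
          (mul_le_mul_of_nonneg_right (hsz x) zero_le_one)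
    have e : ∀ x, ∑ i, ampD β J y (spins x) j i * act J (Φ x) i = s x * ∑ i,
        act J (fun l => φ (ampZ β J y' (spins x) k l)) i * ampD β J y (spins x) j i := fun x => by
      simp only [hΦ, act, mul_sum, sum_mul]
      exact sum_congr rfl fun i _ => sum_congr rfl fun l _ => by ring
    simpa only [e] using h

/-- Tests against functions of later iterates. -/
theorem testsStatement_of_rule (hrule : RuleStatement β) : TestsStatement β := by
  intro k
  choose! m hm using fun (j : ℕ) (hj : j ≤ k) => tests_one hrule j k hj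
  refine ⟨(range (k + 1)).sup m, fun C => ?_⟩
  choose! C' hC' using fun (j : ℕ) (hj : j ≤ k) => hm j hj C
  refine ⟨∑ j ∈ range (k + 1), C' j, fun n J y y' F s φ φ₁ φ₂ hG hF hs hφ hφn j hj => ?_⟩
  have hjr : j ∈ range (k + 1) := mem_range.2 (by omega)
  obtain ⟨hc, hb⟩ := hC' j hj
  obtain ⟨h1, h2⟩ := hb n J y y' F s φ φ₁ φ₂ (goodWords_mono hG (le_sup hjr)) hF hs hφ hφn
  have hle : C' j * √n * √(tdir (gibbs J y) F + 1)
      ≤ (∑ i ∈ range (k + 1), C' i) * √n * √(tdir (gibbs J y) F + 1) :=
    mul_le_mul_of_nonneg_right (mul_le_mul_of_nonneg_right (single_le_sum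
      (f := C') (fun i hi => (hC' i (by have := mem_range.1 hi; omega)).1) hjr)
      (Real.sqrt_nonneg _)) (Real.sqrt_nonneg _)
  exact ⟨h1.trans hle, fun h => (h2 h).trans hle⟩

/-- The free value of the pairing of a gradient with `L_k J`. -/
lemma free_chain_L_coup {ι : Type*} [Fintype ι] (K : Coef ι) (U : ℕ → ι → ℝ) (k : ℕ) (i : ι) :
    (Expr.mul (chain β (chainList U k)) (Expr.mul (K.L k) .coup)).free β i
      = β ^ 2 * K.T β U k := by
  rw [← free_chain_A (β := β) K U k i, free_chain_mul, free_chain_mul]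
  have hlow : Low k ((K.A k).op β vac - (Expr.mul (K.L k) .coup).op β vac) := by
    intro s hs
    rcases Nat.lt_or_ge (k + 2) s.length with h | h
    · have h1 := low_vac.op (β := β) (K.A k) s (by have := K.deg_A k; omega)
      have h2 := low_vac.op (β := β) (Expr.mul (K.L k) .coup) s
        (by have := K.deg_L k; simp only [Expr.deg]; omega)
      simp [h1, h2]
    · have hlen : s.length = 0 + k + 2 := by omega
      have hann : ann β (vac : State ι) = 0 := ann_eq_zero low_vac
      have h3 : (Expr.mul (K.L k) .coup).op β vac s = K.top k (push vac) s := by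
        simp only [Expr.op, LinearMap.comp_apply, opJ_apply, hann, add_zero]
        exact K.L_top k 1 _ low_vac.push s (by omega)
      simp [h3, K.A_top k 0 _ low_vac s hlen]
  have h0 : annC β (chainList U k) ((K.A k).op β vac - (Expr.mul (K.L k) .coup).op β vac) = 0 :=
    annC_eq_zero _ (by simpa using hlow)
  rw [map_sub, sub_eq_zero] at h0
  rw [h0]

/-- The step of the energy. -/
theorem energyStep_of_rule (hrule : RuleStatement β) (hscal : ScalarStatement β) :
    EnergyStepStatement β := by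
  intro k
  obtain ⟨m, hm⟩ := hrule k
  obtain ⟨m', hm'⟩ := hscal k
  refine ⟨max (max m m') (2 * k + 3), fun C => ?_⟩
  obtain ⟨C0, hC0⟩ := hm C
  obtain ⟨C2, hC2⟩ := hm' C
  obtain ⟨R, hR0, hR⟩ := exists_zgrad β C k
  set M := max C 1
  set T1 : ℝ := M * (1 + aAct β C k R)
  set KX : ℝ := M ^ (k + 1) * (lSize β k) ^ 2
  set SX : ℝ := (1 + β ^ 2) ^ k * lSize β k
  set A : ℝ := |C0| * √(T1 + 1) + (√(KX * (288 * zQuart β C k R + 2 * R)) + √(C * SX ^ 2)
    + β ^ 2 * √|C2|)
  refine ⟨A, fun n J y F hG hF => ?_⟩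
  have hρ : ∀ x, 0 < gibbs J y x := fun x => gibbs_pos x
  rcases Nat.eq_zero_or_pos n with rfl | hn
  · simp [tmean, mean]
  have : Nonempty (Fin n) := Fin.pos_iff_nonempty.1 hn
  have hn1 : (1 : ℝ) ≤ n := by exact_mod_cast hn
  have hGm := goodWords_mono hG ((le_max_left m m').trans (le_max_left _ (2 * k + 3)))
  have hGm' := goodWords_mono hG ((le_max_right m m').trans (le_max_left _ (2 * k + 3)))
  have hGk : GoodWords β (2 * k + 3) C J := goodWords_mono hG (le_max_right _ _)
  have hD : 0 ≤ tdir (gibbs J y) F := by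
    refine div_nonneg ?_ (meanF_pos hρ hF).le
    rw [dirichlet_eq hG.1 hG.2.1]
    exact sum_nonneg fun i _ => sum_nonneg fun x _ => mul_nonneg (hρ x).le (sq_nonneg _)
  have hJ : Act M (Matrix.of J) := by
    have := expr_act hG .coup (d := 1) (S := 1) le_rfl le_rfl
    simpa [Expr.mat] using this
  set W := fun z => ampA β J y (spins z) (k + 1)
  set Ψ := fun z i => act J (W z) i
  set e := fun x => ampT β J y (spins x) k
    - (qav (ampA β J y (spins x) k) - qav (ampA β J y (spins x) (k + 1)))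
  set o := fun x => onsager β (W x)
  have hz : ∀ x, ZGrad β J y x k R := fun x => hR _ _ J y x (by omega) hGk
  have haA : ∀ x, Act (aAct β C k R) (jac W x) := fun x => (hz x).actA hGk (by omega)
  have hT : ∀ x, testSq Ψ x ≤ T1 * n := fun x => by
    refine (testSq_act_le hJ W x).trans ?_
    rw [show T1 * n = M * ((1 + aAct β C k R) * n) by rw [← mul_assoc]]
    refine mul_le_mul_of_nonneg_left ?_ (le_max_of_le_right zero_le_one)
    have h1 : ∑ i, W x i ^ 2 ≤ n :=
      le_of_le_of_eq (sum_le_sum fun i _ =>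
        (sq_le_one_iff_abs_le_one _).2 (abs_ampA_le β J y x _ i)) (by simp)
    have h2 := (haA x).frob_le
    rw [Fintype.card_fin] at h2
    rw [testSq_eq]
    linarith
  have htr : ∀ x, |tracePair (ampL β J y (spins x) k) Ψ x - n * (o x * ampT β J y (spins x) k)|
      ≤ (√(KX * (288 * zQuart β C k R + 2 * R)) + √(C * SX ^ 2)) * √n := fun x => by
    set P := gradE β J y (spins x) k
    set U := ampU β J y (spins x) (k + 1)
    set X := Expr.mul ((ampCoef β J y (spins x)).L k) .coup
    have hXs : X.size ≤ lSize β k := by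
      simpa [X, Expr.size] using size_ampL β J y x k
    have hXd : X.deg ≤ k + 1 := by
      have := (ampCoef β J y (spins x)).deg_L k
      simp only [X, Expr.deg]
      omega
    have hXA : Act KX (X.mat J) := expr_act hGk X hXd hXs
    have hXm : X.mat J = ampL β J y (spins x) k * Matrix.of J := by
      simp [X, Expr.mat, ampL_eq]
    have hfree : ∀ i, (Expr.mul (.diag U) (.mul P X)).free β i
        = U i * (β ^ 2 * ampT β J y (spins x) k) := fun i => by
      rw [free_diag_mul, ampT_eq]
      exact congrArg (U i * ·) (free_chain_L_coup _ _ k i)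
    have hE1 := abs_sum_le_sqrt (u := fun _ : Fin n => (1 : ℝ)) ((diag_mul_sq_le hXA
      (jac W x - Matrix.diagonal U * P.mat J)).trans
      (mul_le_mul_of_nonneg_left ((hz x).gradA hGk (by omega))
        ((sum_nonneg fun _ _ => sq_nonneg _).trans (hXA.row_le ⟨0, hn⟩))))
    have hE2 := abs_weighted_diag_le hGk (Expr.mul (.diag U) (.mul P X))
      (S := SX) (by simp only [Expr.deg]; have hP : P.deg ≤ k + 1 := deg_gradE β J y (spins x) k; omega)
      (by
        simp only [Expr.size]
        refine (mul_le_of_le_one_left (mul_nonneg P.size_nonneg X.size_nonneg)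
          (norm_ampU_le β J y (spins x) (abs_spins_le x) _)).trans ?_
        exact mul_le_mul (size_gradE β J y (spins x) (abs_spins_le x) k) hXs X.size_nonneg
          (by positivity)) (fun _ => 1)
    simp only [one_mul, one_pow, sum_const, card_univ, Fintype.card_fin, nsmul_one, hfree]
      at hE1 hE2
    have hsum : (∑ i, U i * (β ^ 2 * ampT β J y (spins x) k))
        = n * (o x * ampT β J y (spins x) k) := by
      have hn0 : (n : ℝ) ≠ 0 := by positivity
      simp only [o, W, onsager_eq, avg, Fintype.card_fin, ← sum_mul, U, ampU]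
      field_simp
    rw [hsum] at hE2
    have hsplit : tracePair (ampL β J y (spins x) k) Ψ x
        = (∑ i, ((jac W x - Matrix.diagonal U * P.mat J) * X.mat J) i i)
          + ∑ i, (Expr.mul (.diag U) (.mul P X)).mat J i i := by
      rw [tracePair_act, ← hXm, tracePair_eq_trace, ← sum_add_distrib]
      refine sum_congr rfl fun i _ => ?_
      simp only [Expr.mat, Matrix.sub_mul, Matrix.sub_apply, Matrix.mul_assoc]
      ring
    rw [hsplit, add_mul, abs_le]
    have a1 := abs_le.1 hE1
    have a2 := abs_le.1 hE2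
    constructor <;> linarith
  have he : |tmean (gibbs J y) F (fun x => n * (o x * e x))|
      ≤ β ^ 2 * √|C2| * √n * √(tdir (gibbs J y) F + 1) := by
    have hs := hC2 n J y F hGm' hF
    have h1 := abs_tmean_mul_le hρ hF (fun x => o x) e
    have h2 : tmean (gibbs J y) F (fun x => o x ^ 2) ≤ (β ^ 2) ^ 2 :=
      (tmean_mono hρ hF fun x => by
        rw [← sq_abs]
        exact pow_le_pow_left₀ (abs_nonneg _) (abs_onsager_le β (abs_ampA_le β J y x _)) 2).trans
        (le_of_eq (tmean_const hρ hF _))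
    rw [tmean_const_mul, abs_mul, Nat.abs_cast]
    have h3 : (n : ℝ) * √(tmean (gibbs J y) F fun x => e x ^ 2)
        ≤ √|C2| * √n * √(tdir (gibbs J y) F + 1) := by
      have hsq : (n : ℝ) * √(tmean (gibbs J y) F fun x => e x ^ 2)
          = √n * √(n * tmean (gibbs J y) F fun x => e x ^ 2) := by
        rw [Real.sqrt_mul (Nat.cast_nonneg n), ← mul_assoc,
          Real.mul_self_sqrt (Nat.cast_nonneg n)]
      rw [hsq, show √|C2| * √n * √(tdir (gibbs J y) F + 1)
        = √n * √(|C2| * (tdir (gibbs J y) F + 1)) by rw [Real.sqrt_mul (abs_nonneg _)]; ring]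
      exact mul_le_mul_of_nonneg_left (Real.sqrt_le_sqrt (hs.trans
        (mul_le_mul_of_nonneg_right (le_abs_self _) (by linarith)))) (Real.sqrt_nonneg _)
    have h4 : √(tmean (gibbs J y) F fun x => o x ^ 2) ≤ β ^ 2 :=
      (Real.sqrt_le_sqrt h2).trans (le_of_eq (Real.sqrt_sq (sq_nonneg β)))
    calc (n : ℝ) * |tmean (gibbs J y) F fun x => o x * e x|
        ≤ n * (β ^ 2 * √(tmean (gibbs J y) F fun x => e x ^ 2)) :=
          mul_le_mul_of_nonneg_left (h1.trans (mul_le_mul_of_nonneg_right h4 (Real.sqrt_nonneg _)))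
            (Nat.cast_nonneg _)
      _ = β ^ 2 * ((n : ℝ) * √(tmean (gibbs J y) F fun x => e x ^ 2)) := by ring
      _ ≤ _ := by
          rw [mul_assoc (β ^ 2), mul_assoc (β ^ 2)]
          exact mul_le_mul_of_nonneg_left h3 (sq_nonneg β)
  have hr := hC0 n J y F Ψ hGm hF
  have hq : tmean (gibbs J y) F (testSq Ψ) + 1 ≤ (T1 + 1) * n := by
    have := (tmean_mono hρ hF hT).trans (le_of_eq (tmean_const hρ hF _))
    linarith
  have hr2 : C0 * √(tdir (gibbs J y) F + 1) * √(tmean (gibbs J y) F (testSq Ψ) + 1)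
      ≤ |C0| * √(T1 + 1) * √n * √(tdir (gibbs J y) F + 1) := by
    calc C0 * √(tdir (gibbs J y) F + 1) * √(tmean (gibbs J y) F (testSq Ψ) + 1)
        ≤ |C0| * √(tdir (gibbs J y) F + 1) * √((T1 + 1) * n) :=
          mul_le_mul (mul_le_mul_of_nonneg_right (le_abs_self _) (Real.sqrt_nonneg _))
            (Real.sqrt_le_sqrt hq) (Real.sqrt_nonneg _) (by positivity)
      _ = _ := by
          rw [Real.sqrt_mul' _ (Nat.cast_nonneg n)]
          ring
  have ht := (abs_tmean_le hρ hF _).trans
    ((tmean_mono hρ hF htr).trans (le_of_eq (tmean_const hρ hF _)))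
  rw [tmean_sub] at ht
  have hsD : (1 : ℝ) ≤ √(tdir (gibbs J y) F + 1) := Real.one_le_sqrt.2 (by linarith)
  have ht2 : (√(KX * (288 * zQuart β C k R + 2 * R)) + √(C * SX ^ 2)) * √n
      ≤ (√(KX * (288 * zQuart β C k R + 2 * R)) + √(C * SX ^ 2)) * √n
        * √(tdir (gibbs J y) F + 1) := le_mul_of_one_le_right (by positivity) hsD
  have e1 : ∀ x, ((∑ i, act J (ampA β J y (spins x) (k + 1)) i * ampD β J y (spins x) k i)
      - n * (onsager β (ampA β J y (spins x) (k + 1))
        * (qav (ampA β J y (spins x) k) - qav (ampA β J y (spins x) (k + 1)))))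
      = ((∑ i, ampD β J y (spins x) k i * Ψ x i) - n * (o x * ampT β J y (spins x) k))
        + n * (o x * e x) := fun x => by
    simp only [o, e, Ψ, W, mul_comm (act J _ _)]
    ring
  simp only [e1, tmean_add, tmean_sub]
  have a1 := abs_le.1 (hr.trans hr2)
  have a2 := abs_le.1 (ht.trans ht2)
  have a3 := abs_le.1 he
  simp only [A, add_mul]
  rw [abs_le]
  constructor <;> linarith

/-- The gradient of an iterate acts boundedly. -/
theorem gradStatement (β : ℝ) : GradStatement β := by
  intro k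
  refine ⟨k + 1, fun C => ?_⟩
  obtain ⟨R, hR0, hR⟩ := exists_zgrad β C k
  refine ⟨zAct β C k R, fun n J y a x hG => ?_⟩
  have h := ((hR _ _ J y x le_rfl hG).act hG).2 a
  refine le_trans (le_of_eq ?_) h
  simp only [Matrix.mulVec, dotProduct, Matrix.transpose_apply, jac, Matrix.of_apply]
  exact sum_congr rfl fun j _ => congrArg (· ^ 2) (sum_congr rfl fun i _ => mul_comm _ _)

end Vale.Agent.P150.Beta1.Rule
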