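import Vale.Agent.P150.Beta1.Rule.Grad

/-!
# Gradients of the AMP fields started from a configuration

The discrete gradient of `ampZ k` is the chain word `gradE k` up to a bounded Frobenius error,
with no a priori bound on the error: the remainder of each step is quadratic in a gradient
that is already known.
-/

namespace Vale.Agent.P150.Beta1.Rule

open Finset Function Real Vale.Agent.P150.Beta1.Algebra

variable {ι : Type*} [Fintype ι] [DecidableEq ι]

omit [DecidableEq ι] in
/-- First-order expansion from a Lipschitz derivative. -/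
lemma taylor_one {f f' : ℝ → ℝ} (hf : ∀ t, HasDerivAt f (f' t) t) {L : ℝ}
    (hL : ∀ s t, |f' s - f' t| ≤ L * |s - t|) (hL0 : 0 ≤ L) (a b : ℝ) :
    |f b - f a - f' a * (b - a)| ≤ L * (b - a) ^ 2 := by
  set φ := fun t => f t - f' a * t with hφ
  have hd : ∀ t ∈ Set.uIcc a b, HasDerivWithinAt φ (f' t - f' a) (Set.uIcc a b) t := fun t _ => by
    have := (hf t).sub ((hasDerivAt_id t).const_mul (f' a))
    simp only [mul_one] at this
    exact this.hasDerivWithinAt
  have hb : ∀ t ∈ Set.uIcc a b, ‖f' t - f' a‖ ≤ L * |b - a| := fun t ht =>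
    (hL t a).trans (mul_le_mul_of_nonneg_left (Set.abs_sub_left_of_mem_uIcc ht) hL0)
  have h := (convex_uIcc a b).norm_image_sub_le_of_norm_hasDerivWithin_le hd hb
    Set.left_mem_uIcc Set.right_mem_uIcc
  rw [norm_eq_abs, norm_eq_abs] at h
  calc |f b - f a - f' a * (b - a)| = |φ b - φ a| := by rw [hφ]; congr 1; ring
    _ ≤ L * |b - a| * |b - a| := h
    _ = _ := by rw [mul_assoc, ← sq, sq_abs]

/-- Derivative of `tanh` is Lipschitz. -/
lemma tanh_deriv_lip (s t : ℝ) : |(1 - tanh s ^ 2) - (1 - tanh t ^ 2)| ≤ 2 * |s - t| := by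
  have h := (convex_univ (𝕜 := ℝ) (E := ℝ)).norm_image_sub_le_of_norm_hasDerivWithin_le
    (f := tanh) (f' := fun u => 1 - tanh u ^ 2) (C := 1)
    (fun u _ => (hasDerivAt_tanh' u).hasDerivWithinAt) (fun u _ => by
      have := (sq_le_one_iff_abs_le_one _).2 (abs_tanh_lt_one u).le
      rw [norm_eq_abs, abs_le]
      constructor <;> nlinarith [sq_nonneg (tanh u)])
    (Set.mem_univ t) (Set.mem_univ s)
  rw [norm_eq_abs, norm_eq_abs, one_mul] at h
  have e : (1 - tanh s ^ 2) - (1 - tanh t ^ 2) = -(tanh s - tanh t) * (tanh s + tanh t) := by ring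
  rw [e, abs_mul, abs_neg]
  have h2 : |tanh s + tanh t| ≤ 2 := by
    have := abs_add_le (tanh s) (tanh t)
    linarith [abs_tanh_lt_one s, abs_tanh_lt_one t]
  calc |tanh s - tanh t| * |tanh s + tanh t| ≤ |s - t| * 2 :=
        mul_le_mul h h2 (abs_nonneg _) (abs_nonneg _)
    _ = _ := by ring

lemma Act.diag_mul {K G : ℝ} {X : Matrix ι ι ℝ} (h : Act K X) {e : ι → ℝ}
    (he : ∀ i, |e i| ≤ G) : Act (G ^ 2 * K) (Matrix.diagonal e * X) := by
  have hsq : ∀ i, e i ^ 2 ≤ G ^ 2 := fun i =>
    sq_le_sq' (by linarith [abs_le.1 (he i)]) (abs_le.1 (he i)).2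
  refine ⟨fun a => ?_, fun a => ?_⟩
  · rw [← Matrix.mulVec_mulVec]
    simp only [Matrix.mulVec_diagonal, mul_pow]
    refine le_trans (sum_le_sum fun i _ => mul_le_mul_of_nonneg_right (hsq i) (sq_nonneg _)) ?_
    rw [← mul_sum, mul_assoc]
    exact mul_le_mul_of_nonneg_left (h.1 a) (sq_nonneg _)
  · rw [Matrix.transpose_mul, Matrix.diagonal_transpose, ← Matrix.mulVec_mulVec]
    refine (h.2 _).trans ?_
    rcases isEmpty_or_nonempty ι with hι | hι
    · simp
    have hK : 0 ≤ K := (sum_nonneg fun _ _ => sq_nonneg _).trans (h.row_le (Classical.arbitrary ι))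
    refine le_trans (mul_le_mul_of_nonneg_left (b := ∑ i, _) (sum_le_sum (g := fun i =>
      G ^ 2 * a i ^ 2) fun i _ => ?_) hK) (le_of_eq ?_)
    · rw [Matrix.mulVec_diagonal, mul_pow]
      exact mul_le_mul_of_nonneg_right (hsq i) (sq_nonneg _)
    · rw [← mul_sum]
      ring

omit [DecidableEq ι] in
lemma abs_tanh_le (t : ℝ) : |tanh t| ≤ 1 := (abs_tanh_lt_one t).le

omit [DecidableEq ι] in
lemma abs_one_sub_tanh_sq (t : ℝ) : |1 - tanh t ^ 2| ≤ 1 := by
  have := (sq_le_one_iff_abs_le_one _).2 (abs_tanh_le t)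
  rw [abs_le]
  constructor <;> nlinarith [sq_nonneg (tanh t)]

omit [Fintype ι] [DecidableEq ι] in
lemma abs_spins_le (x : ι → Bool) (i : ι) : |spins x i| ≤ 1 := by
  rw [spins]
  rcases spin_cases (x i) with h | h <;> rw [h] <;> norm_num

omit [DecidableEq ι] in
lemma abs_ampA_le (β : ℝ) (J : ι → ι → ℝ) (y : ι → ℝ) (x : ι → Bool) :
    ∀ (k : ℕ) (i : ι), |ampA β J y (spins x) k i| ≤ 1
  | 0, i => abs_spins_le x i
  | _ + 1, _ => abs_tanh_le _

omit [DecidableEq ι] in
lemma qav_mem {u : ι → ℝ} (hu : ∀ i, |u i| ≤ 1) : 0 ≤ qav u ∧ qav u ≤ 1 := by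
  refine ⟨div_nonneg (sum_nonneg fun _ _ => sq_nonneg _) (Nat.cast_nonneg _), ?_⟩
  refine div_le_one_of_le₀ ((sum_le_sum fun i _ => (sq_le_one_iff_abs_le_one _).2 (hu i)).trans
    (le_of_eq (by simp))) (Nat.cast_nonneg _)

omit [DecidableEq ι] in
lemma abs_onsager_le (β : ℝ) {u : ι → ℝ} (hu : ∀ i, |u i| ≤ 1) : |onsager β u| ≤ β ^ 2 := by
  obtain ⟨h0, h1⟩ := qav_mem hu
  rw [onsager, abs_mul, abs_of_nonneg (sq_nonneg β)]
  exact mul_le_of_le_one_right (sq_nonneg β) (abs_le.2 ⟨by linarith, by linarith⟩)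

omit [DecidableEq ι] in
lemma free_chain (β : ℝ) (l : List (ι → ℝ)) (i : ι) : (chain β l).free β i = 0 := by
  have h := free_chain_mul_eq_zero (β := β) l (.diag fun _ => (1 : ℝ)) (Nat.zero_le _) i
  have hv : topMul (fun _ => (1 : ℝ)) vac = (vac : State ι) := by
    funext s
    cases s <;> simp [vac]
  simpa [Expr.free, Expr.op, hv] using h

variable {β C : ℝ} {m : ℕ} {J : ι → ι → ℝ} {y : ι → ℝ} {x : ι → Bool}

/-- What is known about the field `ampZ k`: an error `R`, and what follows from it. -/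
def ZGrad (β : ℝ) (J : ι → ι → ℝ) (y : ι → ℝ) (x : ι → Bool) (k : ℕ) (R : ℝ) : Prop :=
  frob (jac (fun z => ampZ β J y (spins z) k) x - (gradE β J y (spins x) k).mat J) ≤ R

/-- The action bound of `jac (ampZ k)` given its error. -/
noncomputable def zAct (β C : ℝ) (k : ℕ) (R : ℝ) : ℝ :=
  2 * (max C 1 ^ (k + 1) * ((1 + β ^ 2) ^ k) ^ 2 + R)

/-- The fourth-power bound of `jac (ampZ k)` given its error. -/
noncomputable def zQuart (β C : ℝ) (k : ℕ) (R : ℝ) : ℝ :=
  8 * ((C + C ^ 2) * ((1 + β ^ 2) ^ k) ^ 4 + R ^ 2)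

/-- The action bound of `jac (ampA (k+1))`. -/
noncomputable def aAct (β C : ℝ) (k : ℕ) (R : ℝ) : ℝ :=
  2 * (max C 1 ^ (k + 1) * ((1 + β ^ 2) ^ k) ^ 2 + (288 * zQuart β C k R + 2 * R))

/-- The gradient bound of `onsager (ampA (k+1))`. -/
noncomputable def bGrad (β C : ℝ) (k : ℕ) (R : ℝ) : ℝ :=
  (β ^ 2) ^ 2 * (2 * (2 ^ 2 * zAct β C k R + 1296 * zQuart β C k R))

lemma ZGrad.act (hG : GoodWords β m C J) {k : ℕ} {R : ℝ} (h : ZGrad β J y x k R) :
    Act (zAct β C k R) (jac (fun z => ampZ β J y (spins z) k) x) := by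
  have hX := expr_act hG _ (deg_gradE β J y (spins x) k)
    (size_gradE β J y (spins x) (abs_spins_le x) k)
  have := hX.add (act_of_frob h)
  rwa [add_sub_cancel] at this

lemma ZGrad.quart_le (hG : GoodWords β m C J) {k : ℕ} (hk : k + 1 ≤ m) {R : ℝ}
    (h : ZGrad β J y x k R) :
    quart (jac (fun z => ampZ β J y (spins z) k) x) ≤ zQuart β C k R := by
  refine (quart_le_of_frob _ ((gradE β J y (spins x) k).mat J)).trans ?_
  have hX := expr_quart hG _ ((deg_gradE β J y (spins x) k).trans hk) (free_chain β _)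
  have hC := goodWords_nonneg hG
  have hs : (gradE β J y (spins x) k).size ^ 4 ≤ ((1 + β ^ 2) ^ k) ^ 4 :=
    pow_le_pow_left₀ (Expr.size_nonneg _) (size_gradE β J y (spins x) (abs_spins_le x) k) 4
  have hR := pow_le_pow_left₀ (frob_nonneg _) h 2
  rw [zQuart]
  linarith [hX.trans (mul_le_mul_of_nonneg_left hs (by positivity))]

/-- The gradient of `ampA (k+1)`. -/
lemma ZGrad.gradA (hG : GoodWords β m C J) {k : ℕ} (hk : k + 1 ≤ m) {R : ℝ}
    (h : ZGrad β J y x k R) :
    frob (jac (fun z => ampA β J y (spins z) (k + 1)) x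
      - Matrix.diagonal (ampU β J y (spins x) (k + 1)) * (gradE β J y (spins x) k).mat J)
      ≤ 288 * zQuart β C k R + 2 * R := by
  set u := fun z => ampZ β J y (spins z) k
  have hcomp := jac_comp3 (fun a _ _ => tanh a) u u u x (fun i => 1 - tanh (u x i) ^ 2)
    (fun _ => 0) (fun _ => 0) (G := 2) (fun i z => by
      have := taylor_one hasDerivAt_tanh' tanh_deriv_lip zero_le_two (u x i) (u z i)
      simp only [zero_mul, sub_zero]
      nlinarith [sq_nonneg (u z i - u x i)])
  have hz : (Matrix.diagonal (fun _ : ι => (0 : ℝ))) = 0 := Matrix.diagonal_zero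
  rw [hz, Matrix.zero_mul, add_zero, add_zero] at hcomp
  have hq := h.quart_le hG hk
  set U := fun i => 1 - tanh (u x i) ^ 2 with hU
  have hUeq : ampU β J y (spins x) (k + 1) = U := rfl
  have hlin : frob (Matrix.diagonal U * (jac u x - (gradE β J y (spins x) k).mat J)) ≤ R :=
    (frob_diag_mul_le (fun i => abs_one_sub_tanh_sq _) _).trans (by rw [one_pow, one_mul]; exact h)
  rw [hUeq]
  have hcomp2 : frob (jac (fun z => ampA β J y (spins z) (k + 1)) x
      - Matrix.diagonal U * jac u x) ≤ 144 * zQuart β C k R := by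
    refine le_trans ?_ (mul_le_mul_of_nonneg_left hq (by norm_num))
    refine le_trans hcomp ?_
    have hq0 : 0 ≤ quart (jac u x) :=
      sum_nonneg fun _ _ => sum_nonneg fun _ _ => by positivity
    have hcases : (12 : ℝ) * 2 ^ 2 * (quart (jac u x) + quart (jac u x) + quart (jac u x))
        = 144 * quart (jac u x) := by ring
    linarith
  have := frob_add_le (jac (fun z => ampA β J y (spins z) (k + 1)) x - Matrix.diagonal U * jac u x)
    (Matrix.diagonal U * (jac u x - (gradE β J y (spins x) k).mat J))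
  rw [Matrix.mul_sub, sub_add_sub_cancel] at this
  rw [← Matrix.mul_sub] at this
  linarith

lemma ZGrad.actA (hG : GoodWords β m C J) {k : ℕ} (hk : k + 1 ≤ m) {R : ℝ}
    (h : ZGrad β J y x k R) :
    Act (aAct β C k R) (jac (fun z => ampA β J y (spins z) (k + 1)) x) := by
  have hX := (expr_act hG _ (deg_gradE β J y (spins x) k)
    (size_gradE β J y (spins x) (abs_spins_le x) k)).diag_mul (G := 1)
    (e := ampU β J y (spins x) (k + 1)) fun i => abs_one_sub_tanh_sq _
  have := hX.add (act_of_frob (h.gradA hG hk))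
  rwa [one_pow, one_mul, add_sub_cancel] at this

/-- The gradient of the scalar `onsager (ampA (k+1))`. -/
lemma ZGrad.gradB (hG : GoodWords β m C J) {k : ℕ} (hk : k + 1 ≤ m) {R : ℝ}
    (h : ZGrad β J y x k R) :
    scGrad (fun z => onsager β (ampA β J y (spins z) (k + 1))) x ≤ bGrad β C k R := by
  set u := fun z => ampZ β J y (spins z) k
  set w := fun z i => tanh (u z i) ^ 2 with hw
  have hd : ∀ t, HasDerivAt (fun s => tanh s ^ 2) (2 * tanh t * (1 - tanh t ^ 2)) t := fun t => by
    simpa using (hasDerivAt_tanh' t).fun_pow 2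
  have hlip : ∀ s t : ℝ, |2 * tanh s * (1 - tanh s ^ 2) - 2 * tanh t * (1 - tanh t ^ 2)|
      ≤ 6 * |s - t| := fun s t => by
    have h1 := tanh_deriv_lip s t
    have h2 : |tanh s - tanh t| ≤ |s - t| := by
      have h3 := (convex_univ (𝕜 := ℝ) (E := ℝ)).norm_image_sub_le_of_norm_hasDerivWithin_le
        (f := tanh) (f' := fun u => 1 - tanh u ^ 2) (C := 1)
        (fun u _ => (hasDerivAt_tanh' u).hasDerivWithinAt)
        (fun u _ => by rw [norm_eq_abs]; exact abs_one_sub_tanh_sq u)
        (Set.mem_univ t) (Set.mem_univ s)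
      simpa using h3
    have e : 2 * tanh s * (1 - tanh s ^ 2) - 2 * tanh t * (1 - tanh t ^ 2)
        = 2 * (tanh s - tanh t) * (1 - tanh s ^ 2)
          + 2 * tanh t * ((1 - tanh s ^ 2) - (1 - tanh t ^ 2)) := by ring
    rw [e]
    refine (abs_add_le _ _).trans ?_
    rw [abs_mul, abs_mul, abs_mul (2 * tanh t), abs_mul, abs_two]
    have := mul_le_mul h2 (abs_one_sub_tanh_sq s) (abs_nonneg _) (abs_nonneg _)
    have := mul_le_mul (abs_tanh_le t) h1 (abs_nonneg _) zero_le_one
    linarith
  have hcomp := jac_comp3 (fun a _ _ => tanh a ^ 2) u u u x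
    (fun i => 2 * tanh (u x i) * (1 - tanh (u x i) ^ 2))
    (fun _ => 0) (fun _ => 0) (G := 6) (fun i z => by
      have := taylor_one hd hlip (by norm_num) (u x i) (u z i)
      simp only [zero_mul, sub_zero]
      nlinarith [sq_nonneg (u z i - u x i)])
  have hz : (Matrix.diagonal (fun _ : ι => (0 : ℝ))) = 0 := Matrix.diagonal_zero
  rw [hz, Matrix.zero_mul, add_zero, add_zero] at hcomp
  have hA := ((h.act hG).diag_mul (G := 2) (e := fun i => 2 * tanh (u x i) * (1 - tanh (u x i) ^ 2))
    fun i => by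
      rw [abs_mul, abs_mul, abs_two]
      nlinarith [mul_le_mul (abs_tanh_le (u x i)) (abs_one_sub_tanh_sq (u x i)) (abs_nonneg _)
        zero_le_one, abs_nonneg (tanh (u x i))]).add (act_of_frob hcomp)
  rw [add_sub_cancel] at hA
  have hq := h.quart_le hG hk
  have hq0 : 0 ≤ quart (jac u x) := sum_nonneg fun _ _ => sum_nonneg fun _ _ => by positivity
  have hw0 : 0 ≤ zAct β C k R := by
    rw [zAct]
    have := (frob_nonneg _).trans h
    positivity
  have hK : Act (2 * (2 ^ 2 * zAct β C k R + 1296 * zQuart β C k R))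
      (jac w x) := by
    refine ⟨fun a => (hA.1 a).trans ?_, fun a => (hA.2 a).trans ?_⟩ <;>
      exact mul_le_mul_of_nonneg_right (by linarith) (sum_nonneg fun _ _ => sq_nonneg _)
  have hav := scGrad_avg (by linarith [hq0.trans hq]) w x hK
  have e : (fun z => onsager β (ampA β J y (spins z) (k + 1)))
      = fun z => (-(β ^ 2)) * avg (w z) + β ^ 2 * (fun _ => (1 : ℝ)) z := by
    funext z
    simp only [onsager, qav, ampA, tanhv, hw, u]
    ring
  rw [e, bGrad]
  simp only [scGrad] at hav ⊢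
  have e2 : ∀ j, deriv2 j (fun z => -(β ^ 2) * avg (w z) + β ^ 2 * (fun _ => (1 : ℝ)) z) x
      = -(β ^ 2) * deriv2 j (fun z => avg (w z)) x := fun j => by simp only [deriv2]; ring
  simp only [e2, mul_pow, ← mul_sum, neg_sq]
  rw [mul_left_comm]
  exact mul_le_mul_of_nonneg_left hav (by positivity)

lemma jac_ampZ_succ (k : ℕ) (P : (ι → Bool) → ι → ℝ)
    (hP : ∀ z i, ampZ β J y (spins z) (k + 1) i
      = y i + act J (ampA β J y (spins z) (k + 1)) i - P z i) :
    jac (fun z => ampZ β J y (spins z) (k + 1)) x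
      = Matrix.of J * jac (fun z => ampA β J y (spins z) (k + 1)) x - jac P x := by
  rw [← jac_act]
  ext i j
  simp only [jac, Matrix.sub_apply, Matrix.of_apply, deriv2, hP]
  ring

lemma ZGrad.zero : ZGrad β J y x 0 0 := by
  have e : jac (fun z => ampZ β J y (spins z) 0) x = (gradE β J y (spins x) 0).mat J := by
    rw [gradE_zero, ← Matrix.mul_one (Matrix.of J), ← jac_spins x, ← jac_act]
    ext i j
    simp only [jac, Matrix.of_apply, deriv2, ampZ]
    ring
  rw [ZGrad, e, sub_self]
  simp [frob]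

/-- The gradient of every AMP field, with an error depending only on `β`, `C` and the index. -/
theorem exists_zgrad (β C : ℝ) : ∀ k : ℕ, ∃ R, 0 ≤ R ∧ ∀ (ι : Type) [Fintype ι] [DecidableEq ι]
    (m : ℕ) (J : ι → ι → ℝ) (y : ι → ℝ) (x : ι → Bool),
    k + 1 ≤ m → GoodWords β m C J → ZGrad β J y x k R
  | 0 => ⟨0, le_rfl, fun ι _ _ m J y x _ _ => ZGrad.zero⟩
  | 1 => by
    set R1 : ℝ := 2 * (max C 1 * (288 * zQuart β C 0 0 + 2 * 0) + bGrad β C 0 0 * (2 * 1 + 8 * 1))
    refine ⟨max R1 0, le_max_right _ _, fun ι _ _ m J y x hm hG => ?_⟩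
    rcases isEmpty_or_nonempty ι with hι | hι
    · simp [ZGrad, frob]
    have h0 : ZGrad β J y x 0 0 := ZGrad.zero
    set P := fun z i => onsager β (ampA β J y (spins z) 1) * spins z i with hP
    have hjac := jac_ampZ_succ (x := x) 0 P (fun z i => rfl) (β := β) (J := J) (y := y)
    have hprod := jac_scalar_mul (fun z => onsager β (ampA β J y (spins z) 1))
      (fun z => spins z) x (W := 1) (K := 1)
      (le_of_le_of_eq (sum_le_sum fun i _ => (sq_le_one_iff_abs_le_one _).2 (abs_spins_le x i))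
        (by simp))
      (le_of_eq (by simp [jac_spins, frob, Matrix.one_apply, sum_ite_eq]))
    rw [jac_spins] at hprod
    have hB := h0.gradB hG (by omega)
    have hA := (expr_act hG .coup (d := 1) (S := 1) le_rfl le_rfl).frob_mul_le
      (jac (fun z => ampA β J y (spins z) 1) x
        - Matrix.diagonal (ampU β J y (spins x) 1) * (gradE β J y (spins x) 0).mat J)
    have hA2 := h0.gradA hG (k := 0) (by omega)
    refine le_trans ?_ (le_max_left R1 0)
    rw [hjac, gradE_one]
    rw [show Matrix.of J * jac (fun z => ampA β J y (spins z) 1) x - jac P x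
        - (Matrix.of J * Matrix.diagonal (ampU β J y (spins x) 1) * Matrix.of J
          - onsager β (ampA β J y (spins x) 1) • (1 : Matrix ι ι ℝ))
      = Matrix.of J * (jac (fun z => ampA β J y (spins z) 1) x
          - Matrix.diagonal (ampU β J y (spins x) 1) * (gradE β J y (spins x) 0).mat J)
        - (jac P x - onsager β (ampA β J y (spins x) 1) • (1 : Matrix ι ι ℝ)) by
      rw [Matrix.mul_sub, gradE_zero, Matrix.mul_assoc]; abel]
    refine (frob_sub_le _ _).trans ?_
    simp only [Expr.mat, pow_one, one_pow, mul_one] at hA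
    have := mul_le_mul_of_nonneg_left hA2 (zero_le_one.trans (le_max_right C 1))
    have := mul_le_mul_of_nonneg_right hB (show (0 : ℝ) ≤ 2 * 1 + 8 * 1 by norm_num)
    simp only [R1]
    linarith
  | k + 2 => by
    obtain ⟨R, hR0, hR⟩ := exists_zgrad β C (k + 1)
    obtain ⟨S, hS0, hS⟩ := exists_zgrad β C k
    set R1 : ℝ := 2 * (max C 1 * (288 * zQuart β C (k + 1) R + 2 * R)
      + 2 * (bGrad β C (k + 1) R * (2 * 1 + 8 * aAct β C k S)
        + (β ^ 2) ^ 2 * (288 * zQuart β C k S + 2 * S)))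
    refine ⟨max R1 0, le_max_right _ _, fun ι _ _ m J y x hm hG => ?_⟩
    rcases isEmpty_or_nonempty ι with hι | hι
    · simp [ZGrad, frob]
    have h1 : ZGrad β J y x (k + 1) R := hR ι m J y x (by omega) hG
    have h0 : ZGrad β J y x k S := hS ι m J y x (by omega) hG
    set A1 := fun z => ampA β J y (spins z) (k + 2) with hA1
    set A0 := fun z => ampA β J y (spins z) (k + 1) with hA0
    set P := fun z i => onsager β (A1 z) * A0 z i with hP
    have hjac := jac_ampZ_succ (x := x) (k + 1) P (fun z i => rfl) (β := β) (J := J) (y := y)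
    have hprod := jac_scalar_mul (fun z => onsager β (A1 z)) A0 x (W := 1) (K := aAct β C k S)
      (le_of_le_of_eq (sum_le_sum fun i _ =>
        (sq_le_one_iff_abs_le_one _).2 (abs_ampA_le β J y x _ i)) (by simp))
      ((h0.actA hG (by omega)).frob_le)
    have hB := h1.gradB hG (by omega)
    have hA := (expr_act hG .coup (d := 1) (S := 1) le_rfl le_rfl).frob_mul_le
      (jac A1 x - Matrix.diagonal (ampU β J y (spins x) (k + 2))
        * (gradE β J y (spins x) (k + 1)).mat J)
    have hA2 := h1.gradA hG (k := k + 1) (by omega)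
    have hA3 := h0.gradA hG (k := k) (by omega)
    have hons : |onsager β (A1 x)| ≤ β ^ 2 := abs_onsager_le β (abs_ampA_le β J y x _)
    have hlast : frob (onsager β (A1 x) • (jac A0 x - Matrix.diagonal (ampU β J y (spins x) (k + 1))
        * (gradE β J y (spins x) k).mat J)) ≤ (β ^ 2) ^ 2 * (288 * zQuart β C k S + 2 * S) := by
      rw [frob_smul, ← sq_abs]
      exact mul_le_mul (pow_le_pow_left₀ (abs_nonneg _) hons 2) hA3 (frob_nonneg _) (sq_nonneg _)
    refine le_trans ?_ (le_max_left R1 0)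
    rw [hjac, gradE_succ]
    rw [show Matrix.of J * jac A1 x - jac P x
        - (Matrix.of J * Matrix.diagonal (ampU β J y (spins x) (k + 2))
            * (gradE β J y (spins x) (k + 1)).mat J
          - onsager β (A1 x) • (Matrix.diagonal (ampU β J y (spins x) (k + 1))
            * (gradE β J y (spins x) k).mat J))
      = Matrix.of J * (jac A1 x - Matrix.diagonal (ampU β J y (spins x) (k + 2))
            * (gradE β J y (spins x) (k + 1)).mat J)
        - ((jac P x - onsager β (A1 x) • jac A0 x)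
          + onsager β (A1 x) • (jac A0 x - Matrix.diagonal (ampU β J y (spins x) (k + 1))
            * (gradE β J y (spins x) k).mat J)) by
      rw [Matrix.mul_sub, Matrix.mul_assoc, smul_sub]; abel]
    refine (frob_sub_le _ _).trans ?_
    have h3 := frob_add_le (jac P x - onsager β (A1 x) • jac A0 x)
      (onsager β (A1 x) • (jac A0 x - Matrix.diagonal (ampU β J y (spins x) (k + 1))
        * (gradE β J y (spins x) k).mat J))
    simp only [Expr.mat, pow_one, one_pow, mul_one] at hA
    have hpre : 0 ≤ 2 * 1 + 8 * aAct β C k S := by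
      have : 0 ≤ aAct β C k S :=
        (sum_nonneg fun _ _ => sq_nonneg _).trans
          ((h0.actA hG (by omega)).row_le (Classical.arbitrary ι))
      positivity
    have := mul_le_mul_of_nonneg_left hA2 (zero_le_one.trans (le_max_right C 1))
    have := mul_le_mul_of_nonneg_right hB hpre
    simp only [R1]
    linarith

end Vale.Agent.P150.Beta1.Rule
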