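import Vale.Agent.P150.Beta1.Rule.Main

/-!
# The inductive step of the rule
-/

namespace Vale.Agent.P150.Beta1.Rule

open Finset Function Real Vale.Agent.P150.Beta1.Algebra

/-- The coefficient of the previous increment; zero at the first step. -/
noncomputable def bF {ι : Type*} [Fintype ι] (β : ℝ) (J : ι → ι → ℝ) (y : ι → ℝ) :
    ℕ → (ι → Bool) → ℝ
  | 0, _ => 0
  | k + 1, z => onsager β (ampA β J y (spins z) (k + 1))

variable {ι : Type*} [Fintype ι] [DecidableEq ι] {β C : ℝ} {J : ι → ι → ℝ} {y : ι → ℝ}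

lemma ampA_mat (x : ι → Bool) (k : ℕ) :
    ((ampCoef β J y (spins x)).A k).mat J
      = ampL β J y (spins x) k * Matrix.of J
        + ampDelta β J y (spins x) k • ampL β J y (spins x) k
        + -bF β J y k x • ampL β J y (spins x) (k - 1) := by
  cases k with
  | zero => simp [Coef.A, Expr.mat, Expr.mat_const, bF, ampL, ampCoef, Matrix.mul_add]
  | succ j =>
    simp only [Coef.A, Expr.mat, Expr.mat_const, ampL_eq, bF, Matrix.mul_add, Matrix.mul_smul,
      Matrix.mul_one, Nat.add_sub_cancel, smul_mul_assoc, Matrix.one_mul]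
    rfl

omit [DecidableEq ι] in
/-- Stein's identity between consecutive fields. -/
lemma ampD_succ [Nonempty ι] (x : ι → Bool) (k : ℕ) (i : ι) :
    ampD β J y (spins x) (k + 1) i
      = (act J (ampD β J y (spins x) k) i + ampDelta β J y (spins x) k * ampD β J y (spins x) k i
          - bF β J y k x * ampD β J y (spins x) (k - 1) i) * gF β J y k x i
        - ampDelta β J y (spins x) k * gaF β J y k x i := by
  have key : ampZ β J y (spins x) k i - ampZ β J y (spins x) (k + 1) i
        - ampDelta β J y (spins x) k * tanh (ampZ β J y (spins x) k i)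
      = act J (ampD β J y (spins x) k) i + ampDelta β J y (spins x) k * ampD β J y (spins x) k i
          - bF β J y k x * ampD β J y (spins x) (k - 1) i := by
    have hact : act J (ampD β J y (spins x) k) i
        = act J (ampA β J y (spins x) k) i - act J (ampA β J y (spins x) (k + 1)) i := by
      simp only [act, ampD, mul_sub, sum_sub_distrib]
    have hZ : ∀ j, ampZ β J y (spins x) (j + 1) i = y i + act J (ampA β J y (spins x) (j + 1)) i
        - onsager β (ampA β J y (spins x) (j + 1)) * ampA β J y (spins x) j i := fun j => by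
      cases j <;> rfl
    have hT : tanh (ampZ β J y (spins x) k i) = ampA β J y (spins x) (k + 1) i := rfl
    rw [hT, hact, hZ k]
    cases k with
    | zero =>
      have hq : qav (ampA β J y (spins x) 0) = 1 := qav_spins x
      show y i + act J (ampA β J y (spins x) 0) i - _ - _ = _
      simp only [bF, ampD, ampDelta, onsager, hq]
      ring
    | succ j =>
      rw [hZ j]
      simp only [bF, ampD, ampDelta, onsager, Nat.add_sub_cancel]
      ring
  have hs := steinG_identity (ampZ β J y (spins x) k i) (ampZ β J y (spins x) (k + 1) i)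
    (ampDelta β J y (spins x) k)
  rw [key] at hs
  exact hs

/-- The product rule inside a trace. -/
lemma trace_split (A : Matrix ι ι ℝ) (u Ψ : (ι → Bool) → ι → ℝ) (x : ι → Bool) :
    tracePair A (fun z i => u z i * Ψ z i) x - tracePair (A * Matrix.diagonal (u x)) Ψ x
      = (∑ i, Ψ x i * (jac u x * A) i i)
        - 2 * ∑ i, ∑ j, (spin (x j) * A j i * jac u x i j) * jac Ψ x i j := by
  simp only [tracePair, Matrix.mul_diagonal]
  simp only [Matrix.mul_apply, mul_sum, ← sum_sub_distrib]
  refine sum_congr rfl fun i _ => sum_congr rfl fun j _ => ?_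
  have e1 := sub_flip j (fun z => u z i) x
  have e2 := deriv2_mul_flip j (fun z => u z i) (fun z => Ψ z i) x
  rw [e2, eq_add_of_sub_eq e1]
  simp only [jac, Matrix.of_apply]
  ring

/-- A two-term gradient against an expression: only the free value of the first word remains. -/
lemma trace_product {m : ℕ} (hG : GoodWords β m C J) (A P P' : Expr ι) {d : ℕ} (hAd : A.deg ≤ d)
    (hP : P.deg + A.deg ≤ m) (hP' : P'.deg + A.deg ≤ m) {G S SA c : ℝ} (hG0 : 0 ≤ G)
    (hAs : A.size ≤ SA) (hPs : P.size ≤ SA) (hPs' : P'.size ≤ SA)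
    (h0 : ∀ i, P.free β i = 0) (h0' : ∀ i, P'.free β i = 0)
    (hfree : ∀ i, (Expr.mul P A).free β i = c) (hfree' : ∀ i, (Expr.mul P' A).free β i = 0)
    {fa fb : ι → ℝ} (hfa : ∀ i, |fa i| ≤ G) (hfb : ∀ i, |fb i| ≤ G) (Dg : Matrix ι ι ℝ)
    (hgrad : frob (Dg - (Matrix.diagonal fa * P.mat J + Matrix.diagonal fb * P'.mat J)) ≤ S)
    (Ψ : (ι → Bool) → ι → ℝ) (x : ι → Bool) :
    |(∑ i, Ψ x i * (Dg * A.mat J) i i)
        - 2 * (∑ i, ∑ j, (spin (x j) * A.mat J j i * Dg i j) * jac Ψ x i j)
        - c * ∑ i, fa i * Ψ x i|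
      ≤ (2 * √(3 * (2 * G ^ 2 * ((2 * C + C ^ 2) * SA ^ 4 + max C 1 ^ m * SA ^ 2 * (C * SA ^ 2))
          + max C 1 ^ d * SA ^ 2 * S))
        + 2 * (G * √(C * (SA * SA) ^ 2)) + √(max C 1 ^ d * SA ^ 2 * S)) * √(testSq Ψ x) := by
  have hC := goodWords_nonneg hG
  have hS : 0 ≤ S := (frob_nonneg _).trans hgrad
  set Rem := Dg - (Matrix.diagonal fa * P.mat J + Matrix.diagonal fb * P'.mat J) with hRem
  set T := testSq Ψ x
  have hT0 : 0 ≤ T := testSq_nonneg _ _
  set H := (2 * C + C ^ 2) * SA ^ 4 + max C 1 ^ m * SA ^ 2 * (C * SA ^ 2)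
  set KA := max C 1 ^ d * SA ^ 2
  have hKA0 : 0 ≤ KA := by positivity
  have hAA : Act KA (A.mat J) := expr_act hG A hAd hAs
  have e : Dg = Matrix.diagonal fa * P.mat J + Matrix.diagonal fb * P'.mat J + Rem := by
    simp [hRem]
  have hG2 : ∀ f : ι → ℝ, (∀ i, |f i| ≤ G) → ∀ i, f i ^ 2 ≤ G ^ 2 := fun f hf i =>
    sq_le_sq' (abs_le.1 (hf i)).1 (abs_le.1 (hf i)).2
  have hhad : ∑ i, ∑ j, A.mat J j i ^ 2 * Dg i j ^ 2 ≤ 3 * (2 * G ^ 2 * H + KA * S) := by
    have hP1 := had_le hG A P (by omega) (by omega) h0 hAs hPs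
    have hP2 := had_le hG A P' (by omega) (by omega) h0' hAs hPs'
    have hpt : ∀ i j, A.mat J j i ^ 2 * Dg i j ^ 2 ≤ 3 * (G ^ 2 * (A.mat J j i ^ 2 * P.mat J i j ^ 2)
        + G ^ 2 * (A.mat J j i ^ 2 * P'.mat J i j ^ 2) + KA * Rem i j ^ 2) := fun i j => by
      have e' : Dg i j = fa i * P.mat J i j + fb i * P'.mat J i j + Rem i j := by
        simp [hRem, Matrix.diagonal_mul]
      rw [e']
      have h3 : (fa i * P.mat J i j + fb i * P'.mat J i j + Rem i j) ^ 2
          ≤ 3 * (fa i ^ 2 * P.mat J i j ^ 2 + fb i ^ 2 * P'.mat J i j ^ 2 + Rem i j ^ 2) := by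
        nlinarith only [sq_nonneg (fa i * P.mat J i j - fb i * P'.mat J i j),
          sq_nonneg (fa i * P.mat J i j - Rem i j), sq_nonneg (fb i * P'.mat J i j - Rem i j)]
      refine (mul_le_mul_of_nonneg_left h3 (sq_nonneg _)).trans ?_
      have h4 := mul_le_mul_of_nonneg_right (hG2 fa hfa i)
        (mul_nonneg (sq_nonneg (A.mat J j i)) (sq_nonneg (P.mat J i j)))
      have h5 := mul_le_mul_of_nonneg_right (hG2 fb hfb i)
        (mul_nonneg (sq_nonneg (A.mat J j i)) (sq_nonneg (P'.mat J i j)))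
      have h6 := mul_le_mul_of_nonneg_right (hAA.entry_le j i) (sq_nonneg (Rem i j))
      linarith only [h4, h5, h6]
    refine (sum_le_sum fun i _ => sum_le_sum fun j _ => hpt i j).trans ?_
    simp only [← mul_sum, sum_add_distrib]
    have h7 := mul_le_mul_of_nonneg_left hgrad hKA0
    have h8 := mul_le_mul_of_nonneg_left hP1 (sq_nonneg G)
    have h9 := mul_le_mul_of_nonneg_left hP2 (sq_nonneg G)
    simp only [frob] at h7
    linarith only [h7, h8, h9]
  have hcross : |∑ i, ∑ j, (spin (x j) * A.mat J j i * Dg i j) * jac Ψ x i j|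
      ≤ √(3 * (2 * G ^ 2 * H + KA * S)) * √T := by
    rw [← Real.sqrt_mul' _ hT0, ← Real.sqrt_sq_eq_abs]
    refine Real.sqrt_le_sqrt ?_
    have hcs := sum_mul_sq_le_sq_mul_sq (univ : Finset (ι × ι))
      (fun p => spin (x p.2) * A.mat J p.2 p.1 * Dg p.1 p.2) (fun p => jac Ψ x p.1 p.2)
    simp only [Fintype.sum_prod_type, mul_pow, spin_sq, one_mul] at hcs
    refine hcs.trans (mul_le_mul hhad ?_ (sum_nonneg fun _ _ => sum_nonneg fun _ _ => sq_nonneg _)
      ((sum_nonneg fun _ _ => sum_nonneg fun _ _ => by positivity).trans hhad))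
    simp only [T, testSq_eq]
    exact le_add_of_nonneg_left (sum_nonneg fun _ _ => sq_nonneg _)
  have hw : ∀ f : ι → ℝ, (∀ i, |f i| ≤ G) → √(∑ i, (f i * Ψ x i) ^ 2) ≤ G * √T := by
    intro f hf
    rw [← Real.sqrt_sq hG0, ← Real.sqrt_mul (sq_nonneg G)]
    refine Real.sqrt_le_sqrt ?_
    simp only [T, testSq_eq, mul_add, mul_sum, mul_pow]
    exact le_add_of_le_of_nonneg (sum_le_sum fun i _ =>
      mul_le_mul_of_nonneg_right (hG2 f hf i) (sq_nonneg _))
      (mul_nonneg (sq_nonneg _) (frob_nonneg _))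
  have hSAA : ∀ Q : Expr ι, Q.size ≤ SA → (Expr.mul Q A).size ≤ SA * SA := fun Q hQ =>
    mul_le_mul hQ hAs A.size_nonneg (Q.size_nonneg.trans hQ)
  have hPA := (abs_weighted_diag_le hG (Expr.mul P A) hP (hSAA P hPs)
    (fun i => fa i * Ψ x i)).trans (mul_le_mul_of_nonneg_left (hw fa hfa) (Real.sqrt_nonneg _))
  have hPA' := (abs_weighted_diag_le hG (Expr.mul P' A) hP' (hSAA P' hPs')
    (fun i => fb i * Ψ x i)).trans (mul_le_mul_of_nonneg_left (hw fb hfb) (Real.sqrt_nonneg _))
  simp only [hfree, hfree', mul_zero, sum_const_zero, sub_zero, ← sum_mul] at hPA hPA'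
  have hRA := (abs_sum_le_sqrt (u := Ψ x) ((diag_mul_sq_le hAA Rem).trans
    (mul_le_mul_of_nonneg_left hgrad hKA0))).trans (mul_le_mul_of_nonneg_left
      (Real.sqrt_le_sqrt (le_add_of_nonneg_right (frob_nonneg (jac Ψ x)))) (Real.sqrt_nonneg _))
  rw [← testSq_eq] at hRA
  have hdiag : ∑ i, Ψ x i * (Dg * A.mat J) i i
      = (∑ i, fa i * Ψ x i * (Expr.mul P A).mat J i i)
        + (∑ i, fb i * Ψ x i * (Expr.mul P' A).mat J i i) + ∑ i, Ψ x i * (Rem * A.mat J) i i := by
    simp only [← sum_add_distrib]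
    refine sum_congr rfl fun i _ => ?_
    conv_lhs => rw [e]
    simp only [Matrix.add_mul, Matrix.add_apply, Expr.mat, Matrix.mul_assoc, Matrix.diagonal_mul]
    ring
  have a1 := abs_le.1 hcross
  have a2 := abs_le.1 hPA
  have a3 := abs_le.1 hPA'
  have a4 := abs_le.1 hRA
  rw [hdiag, abs_le]
  constructor <;> linarith only [a1.1, a1.2, a2.1, a2.2, a3.1, a3.2, a4.1, a4.2]

/-- Constants for the pointwise step. -/
lemma exists_step_bounds (β C : ℝ) (k : ℕ) : ∃ K, 0 ≤ K ∧ ∀ (n : ℕ) (J : Fin n → Fin n → ℝ)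
    (y : Fin n → ℝ) (Ψ : (Fin n → Bool) → Fin n → ℝ) (x : Fin n → Bool),
    1 ≤ n → GoodWords β (2 * k + 4) C J →
      testSq (fun z i => act J (fun l => gF β J y k z l * Ψ z l) i
        + ampDelta β J y (spins z) k * (gF β J y k z i * Ψ z i)) x ≤ K * testSq Ψ x ∧
      testSq (fun z i => bF β J y k z * (gF β J y k z i * Ψ z i)) x ≤ K * testSq Ψ x ∧
      |tracePair (ampL β J y (spins x) k) (fun z i => act J (fun l => gF β J y k z l * Ψ z l) i
          + ampDelta β J y (spins z) k * (gF β J y k z i * Ψ z i)) x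
        - tracePair (ampL β J y (spins x) (k - 1))
          (fun z i => bF β J y k z * (gF β J y k z i * Ψ z i)) x
        - tracePair (ampL β J y (spins x) (k + 1)) Ψ x
        - β ^ 2 * ampT β J y (spins x) k * ∑ i, gaF β J y k x i * Ψ x i|
      ≤ K * √(testSq Ψ x) := by
  obtain ⟨Sg, hSg0, hSg⟩ := exists_ggrad β C k
  obtain ⟨Sd, hSd0, hSd⟩ := exists_dgrad β C k
  obtain ⟨R, hR0, hR⟩ := exists_zgrad β C k
  obtain ⟨R', hR'0, hR'⟩ := exists_zgrad β C (k + 1)
  set M := max C 1
  set G := 2 * exp (β ^ 2 / 2)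
  set b := β ^ 2
  set W : ℝ := 3 * G ^ 2 + 2 * Sg
  set Ws : ℝ := 3 * b ^ 2 + 2 * Sd
  set KL : ℝ := M ^ k * (lSize β k) ^ 2 + M ^ (k - 1) * (lSize β (k - 1)) ^ 2
  set SA : ℝ := (1 + β ^ 2) ^ (k + 1) * (lSize β k * (1 + b) + b * lSize β (k - 1) + 1)
  set KA : ℝ := M ^ (k + 1) * SA ^ 2
  set HA : ℝ := (2 * C + C ^ 2) * SA ^ 4 + max C 1 ^ (2 * k + 4) * SA ^ 2 * (C * SA ^ 2)
  set Had : ℝ := 3 * (2 * G ^ 2 * HA + KA * Sg)
  set E1 : ℝ := 6 * √(Sd * KL * W)
  set E2 : ℝ := 2 * √Had + 2 * (G * √(C * (SA * SA) ^ 2)) + √(KA * Sg)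
  set K1 : ℝ := 2 * (M * W + Ws * W) + Ws * W + E1 + E2
  refine ⟨max K1 0, le_max_right _ _, fun n J y Ψ x hn hG => ?_⟩
  have : Nonempty (Fin n) := Fin.pos_iff_nonempty.1 hn
  have hn1 : (1 : ℝ) ≤ n := by exact_mod_cast hn
  have hC := goodWords_nonneg hG
  have hM : 1 ≤ M := le_max_right _ _
  have hG0 : 0 ≤ G := by positivity
  obtain ⟨hgrad, hgact, -, -⟩ := hSg _ _ J y x (by omega) hG
  obtain ⟨hdD, -, hdB⟩ := hSd _ _ J y x (by omega) hG
  have hgb : ∀ z i, |gF β J y k z i| ≤ G ∧ |gaF β J y k z i| ≤ G ∧ |gbF β J y k z i| ≤ G :=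
    fun z i => by
    obtain ⟨a1, a2, a3, -⟩ := stein_bounds (abs_ampDelta_le β J y z k)
      (ampZ β J y (spins z) k i) (ampZ β J y (spins z) (k + 1) i)
    refine ⟨a1.trans ?_, a2, a3⟩
    simp only [G]
    linarith [exp_pos (β ^ 2 / 2)]
  have hbB : ∀ z, |bF β J y k z| ≤ b := fun z => by
    cases k with
    | zero => simp [bF, b, sq_nonneg]
    | succ j => exact abs_onsager_le β (abs_ampA_le β J y z _)
  have hbgrad : scGrad (bF β J y k) x ≤ Sd := by
    cases k with
    | zero =>
      refine le_trans (le_of_eq ?_) hSd0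
      show scGrad (fun _ => (0 : ℝ)) x = 0
      exact scGrad_const 0
    | succ j => exact hdB
  set Wf := fun z i => gF β J y k z i * Ψ z i
  set T := testSq Ψ x
  have hT0 : 0 ≤ T := testSq_nonneg _ _
  have hW : testSq Wf x ≤ W * T :=
    testSq_mul_le (gF β J y k) Ψ x (fun z i => (hgb z i).1) (fun i => hgact.row_le i) hSg0
  have hW0 : 0 ≤ W := by positivity
  have hscal : ∀ (s : (Fin n → Bool) → ℝ), (∀ z, |s z| ≤ b) → scGrad s x ≤ Sd →
      testSq (fun z i => s z * Wf z i) x ≤ Ws * W * T := fun s hs hsg => by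
    refine le_trans ?_ ((mul_le_mul_of_nonneg_left hW (show 0 ≤ Ws by positivity)).trans
      (le_of_eq (by ring)))
    refine testSq_mul_le (fun z _ => s z) Wf x (fun z _ => hs z) (fun i => ?_) hSd0
    refine le_trans ?_ hsg
    simp only [scGrad, jac, Matrix.of_apply, Fintype.card_fin]
    exact le_mul_of_one_le_left (sum_nonneg fun _ _ => sq_nonneg _) hn1
  have hJ : Act M (Matrix.of J) := by
    have := expr_act hG .coup (d := 1) (S := 1) le_rfl le_rfl
    simpa [Expr.mat] using this
  have hE10 : 0 ≤ E1 := by positivity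
  have hE20 : 0 ≤ E2 := by positivity
  have hWs0 : 0 ≤ Ws := by positivity
  have hMW : 0 ≤ M * W := by positivity
  have hWW : 0 ≤ Ws * W := by positivity
  have hK1 : ∀ t, t ≤ K1 → t ≤ max K1 0 := fun t ht => ht.trans (le_max_left _ _)
  refine ⟨?_, ?_, ?_⟩
  · refine (testSq_add_le (fun z i => act J (Wf z) i)
      (fun z i => ampDelta β J y (spins z) k * Wf z i) x).trans ?_
    have h1 := (testSq_act_le hJ Wf x).trans (mul_le_mul_of_nonneg_left hW (by positivity))
    have h2 := hscal _ (fun z => abs_ampDelta_le β J y z k) hdD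
    refine le_trans ?_ (mul_le_mul_of_nonneg_right (le_max_left K1 0) hT0)
    have : 2 * (M * W + Ws * W) * T ≤ K1 * T :=
      mul_le_mul_of_nonneg_right (by simp only [K1]; linarith) hT0
    linarith
  · refine (hscal _ hbB hbgrad).trans (mul_le_mul_of_nonneg_right (hK1 _ ?_) hT0)
    simp only [K1]
    linarith
  · set A := (ampCoef β J y (spins x)).A k
    have hAL : A.mat J * Matrix.diagonal (gF β J y k x) = ampL β J y (spins x) (k + 1) := by
      rw [ampL_eq, Coef.L_succ]
      rfl
    have hKL : ∀ j, j = k ∨ j = k - 1 → Act KL (ampL β J y (spins x) j) := fun j hj => by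
      have h := expr_act hG _ (Coef.deg_L (ampCoef β J y (spins x)) j) (size_ampL β J y x j)
      rw [← ampL_eq] at h
      have h0 : ∀ i, 0 ≤ M ^ i * lSize β i ^ 2 := fun i => by positivity
      have hle : M ^ j * lSize β j ^ 2 ≤ KL := by
        rcases hj with hj | hj <;> rw [hj] <;> simp only [KL] <;> linarith [h0 k, h0 (k - 1)]
      exact ⟨fun a => (h.1 a).trans (mul_le_mul_of_nonneg_right hle
          (sum_nonneg fun _ _ => sq_nonneg _)),
        fun a => (h.2 a).trans (mul_le_mul_of_nonneg_right hle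
          (sum_nonneg fun _ _ => sq_nonneg _))⟩
    have hsc : ∀ (s : (Fin n → Bool) → ℝ) (L : Matrix (Fin n) (Fin n) ℝ), Act KL L →
        scGrad s x ≤ Sd →
        |tracePair L (fun z i => s z * Wf z i) x - s x * tracePair L Wf x|
          ≤ 3 * √(Sd * KL * W) * √T := fun s L hL hsg => by
      refine (tracePair_scalar hL s Wf x).trans ?_
      rw [Fintype.card_fin, mul_assoc 3, ← Real.sqrt_mul (by positivity)]
      refine mul_le_mul_of_nonneg_left (Real.sqrt_le_sqrt ?_) (by norm_num)
      have hnum : scGrad s x * KL * testSq Wf x ≤ Sd * KL * W * T := by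
        rw [mul_assoc _ W T]
        exact mul_le_mul (mul_le_mul_of_nonneg_right hsg (by positivity)) hW (testSq_nonneg _ _)
          (by positivity)
      exact (div_le_self (mul_nonneg (mul_nonneg (scGrad_nonneg _ _) (by positivity))
        (testSq_nonneg _ _)) hn1).trans hnum
    have hdrop := hsc _ _ (hKL k (Or.inl rfl)) hdD
    have hdropB := hsc _ _ (hKL (k - 1) (Or.inr rfl)) hbgrad
    have hAsum : tracePair (A.mat J) Wf x
        = tracePair (ampL β J y (spins x) k) (fun z i => act J (Wf z) i) x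
          + ampDelta β J y (spins x) k * tracePair (ampL β J y (spins x) k) Wf x
          - bF β J y k x * tracePair (ampL β J y (spins x) (k - 1)) Wf x := by
      rw [ampA_mat, tracePair_add, tracePair_add, tracePair_smul, tracePair_smul, tracePair_act]
      ring
    have hprod := trace_split (A.mat J) (gF β J y k) Ψ x
    rw [hAL] at hprod
    set P := gradE β J y (spins x) k
    set P' := gradE β J y (spins x) (k + 1)
    set fa := gaF β J y k x
    set fb := gbF β J y k x
    have hAd : A.deg ≤ k + 1 := Coef.deg_A _ k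
    have hAs : A.size ≤ SA := by
      have h1 : A.size ≤ lSize β k * (1 + b) + b * lSize β (k - 1) := by
        have hd : (Expr.const (ampDelta β J y (spins x) k) : Expr (Fin n)).size ≤ b :=
          (Expr.size_const_le _).trans (abs_ampDelta_le β J y x k)
        cases k with
        | zero =>
          have h0 := size_ampL β J y x 0
          simp only [A, Coef.A, Expr.size, Coef.L] at h0 ⊢
          refine (mul_le_mul h0 (add_le_add le_rfl hd) (add_nonneg zero_le_one
            (Expr.size_nonneg _)) (lSize_nonneg β 0)).trans ?_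
          exact le_add_of_nonneg_right (mul_nonneg (sq_nonneg β) (lSize_nonneg β _))
        | succ j =>
          have hb' : (Expr.const (-(ampCoef β J y (spins x)).ons (j + 1)) : Expr (Fin n)).size
              ≤ b := (Expr.size_const_le _).trans (by
            rw [abs_neg]; exact abs_onsager_le β (abs_ampA_le β J y x _))
          simp only [A, Coef.A, Expr.size, Nat.add_sub_cancel]
          exact add_le_add (mul_le_mul (size_ampL β J y x (j + 1)) (add_le_add le_rfl hd)
              (add_nonneg zero_le_one (Expr.size_nonneg _)) (lSize_nonneg β _))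
            (mul_le_mul hb' (size_ampL β J y x j) (Expr.size_nonneg _) (sq_nonneg β))
      refine h1.trans ((le_add_of_nonneg_right zero_le_one).trans
        (le_mul_of_one_le_left ?_ (one_le_pow₀ (le_add_of_nonneg_right (sq_nonneg β)))))
      have := lSize_nonneg β k
      have := lSize_nonneg β (k - 1)
      positivity
    have hPs : P.size ≤ SA ∧ P'.size ≤ SA := by
      have h1 : (1 + β ^ 2) ^ (k + 1) ≤ SA :=
        le_mul_of_one_le_right (by positivity) (le_add_of_nonneg_left (by
          have := lSize_nonneg β k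
          have := lSize_nonneg β (k - 1)
          positivity))
      exact ⟨((size_gradE β J y (spins x) (abs_spins_le x) k).trans
        (pow_le_pow_right₀ (le_add_of_nonneg_right (sq_nonneg β)) (Nat.le_succ k))).trans h1,
        (size_gradE β J y (spins x) (abs_spins_le x) (k + 1)).trans h1⟩
    have hdP : P.deg ≤ k + 1 := deg_gradE β J y (spins x) k
    have hdP' : P'.deg ≤ k + 2 := deg_gradE β J y (spins x) (k + 1)
    have hpair := trace_product hG A P P' hAd (by omega) (by omega) hG0 hAs hPs.1 hPs.2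
      (free_chain β _) (free_chain β _) (amp_free_current β J y (spins x) k)
      (amp_free_next β J y (spins x) k) (fun i => (hgb x i).2.1) (fun i => (hgb x i).2.2) _ hgrad Ψ x
    rw [tracePair_add_right]
    refine le_trans ?_ (mul_le_mul_of_nonneg_right (le_max_left K1 0) (Real.sqrt_nonneg _))
    have hfirst : 0 ≤ (2 * (M * W + Ws * W) + Ws * W) * √T := by positivity
    have a1 := abs_le.1 hdrop
    have a2 := abs_le.1 hdropB
    have a3 := abs_le.1 hpair
    simp only [K1, E1, E2, Had, HA, KA]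
    rw [abs_le]
    constructor <;>
      linarith only [a1.1, a1.2, a2.1, a2.2, a3.1, a3.2, hfirst, hAsum, hprod]

omit [DecidableEq ι] in
/-- Symmetry moves the coupling to the other side of an inner product. -/
lemma sum_act_mul (hs : ∀ i j, J i j = J j i) (a b : ι → ℝ) :
    ∑ i, act J a i * b i = ∑ i, a i * act J b i := by
  simp only [act, sum_mul, mul_sum]
  rw [sum_comm]
  exact sum_congr rfl fun i _ => sum_congr rfl fun j _ => by rw [hs]; ring

/-- The inductive step. -/
theorem rule_succ {k : ℕ} (hk : RuleAt β k) (hk' : RuleAt β (k - 1)) : RuleAt β (k + 1) := by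
  obtain ⟨m2, hm2⟩ := scalar_of_rule hk
  obtain ⟨m, hm⟩ := hk
  obtain ⟨m', hm'⟩ := hk'
  refine ⟨max (max m m') (max m2 (2 * k + 4)), fun C => ?_⟩
  obtain ⟨C0, hC0⟩ := hm C
  obtain ⟨C0', hC0'⟩ := hm' C
  obtain ⟨C2, hC2⟩ := hm2 C
  obtain ⟨K, hK0, hK⟩ := exists_step_bounds β C k
  set G := 2 * exp (β ^ 2 / 2)
  refine ⟨(|C0| + |C0'|) * √(K + 1) + β ^ 2 * G * √|C2| + K, fun n J y F Ψ hG hF => ?_⟩
  have hρ : ∀ x, 0 < gibbs J y x := fun x => gibbs_pos x
  have hD : 0 ≤ tdir (gibbs J y) F := tdir_nonneg hG y hF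
  rcases Nat.eq_zero_or_pos n with rfl | hn
  · simp [tmean, mean, tracePair]
    positivity
  have : Nonempty (Fin n) := Fin.pos_iff_nonempty.1 hn
  have hn1 : (1 : ℝ) ≤ n := by exact_mod_cast hn
  set D := tdir (gibbs J y) F
  set T := tmean (gibbs J y) F (testSq Ψ)
  have hT0 : 0 ≤ T := tmean_nonneg hρ hF fun x => testSq_nonneg _ _
  have hsD : 1 ≤ √(D + 1) := Real.one_le_sqrt.2 (by linarith)
  have hb := fun x => hK n J y Ψ x hn
    (goodWords_mono hG ((le_max_right m2 (2 * k + 4)).trans (le_max_right (max m m') _)))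
  set Φ1 := fun z i => act J (fun l => gF β J y k z l * Ψ z l) i
    + ampDelta β J y (spins z) k * (gF β J y k z i * Ψ z i)
  set Φ2 := fun z i => bF β J y k z * (gF β J y k z i * Ψ z i)
  have hsq : ∀ Φ : (Fin n → Bool) → Fin n → ℝ, (∀ x, testSq Φ x ≤ K * testSq Ψ x) →
      √(tmean (gibbs J y) F (testSq Φ) + 1) ≤ √(K + 1) * √(T + 1) := fun Φ hΦ => by
    rw [← Real.sqrt_mul (by linarith)]
    refine Real.sqrt_le_sqrt ?_
    have := tmean_mono hρ hF hΦ
    rw [tmean_const_mul] at this
    nlinarith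
  have h1 := (hC0 n J y F Φ1 (goodWords_mono hG ((le_max_left m m').trans (le_max_left _ _))) hF).trans
    (mul_le_mul (mul_le_mul_of_nonneg_right (le_abs_self C0) (Real.sqrt_nonneg _))
      (hsq Φ1 fun x => (hb x).1) (Real.sqrt_nonneg _) (by positivity))
  have h2 := (hC0' n J y F Φ2 (goodWords_mono hG ((le_max_right m m').trans (le_max_left _ _))) hF).trans
    (mul_le_mul (mul_le_mul_of_nonneg_right (le_abs_self C0') (Real.sqrt_nonneg _))
      (hsq Φ2 fun x => (hb x).2.1) (Real.sqrt_nonneg _) (by positivity))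
  set e := fun x => ampT β J y (spins x) k
    - (qav (ampA β J y (spins x) k) - qav (ampA β J y (spins x) (k + 1)))
  set S := fun x => ∑ i, gaF β J y k x i * Ψ x i
  set r := fun x => tracePair (ampL β J y (spins x) k) Φ1 x
    - tracePair (ampL β J y (spins x) (k - 1)) Φ2 x
    - tracePair (ampL β J y (spins x) (k + 1)) Ψ x - β ^ 2 * ampT β J y (spins x) k * S x
  have hr : |tmean (gibbs J y) F r| ≤ K * √(T + 1) :=
    abs_tmean_le_sqrt hρ hF (fun x => testSq_nonneg _ _) (fun x => (hb x).2.2) hK0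
  have he : |tmean (gibbs J y) F (fun x => e x * S x)|
      ≤ G * √|C2| * √(D + 1) * √(T + 1) := by
    refine (abs_tmean_mul_le hρ hF e S).trans ?_
    have hS : ∀ x, S x ^ 2 ≤ G ^ 2 * n * testSq Ψ x := fun x => by
      refine (sum_mul_sq_le_sq_mul_sq _ _ _).trans ?_
      refine mul_le_mul ?_ ?_ (sum_nonneg fun _ _ => sq_nonneg _) (by positivity)
      · refine le_of_le_of_eq (sum_le_sum fun i _ => ?_) (by simp [mul_comm] : ∑ _i : Fin n, G ^ 2 = G ^ 2 * n)
        have h := (stein_bounds (abs_ampDelta_le β J y x k)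
          (ampZ β J y (spins x) k i) (ampZ β J y (spins x) (k + 1) i)).2.1
        exact sq_le_sq' (abs_le.1 h).1 (abs_le.1 h).2
      · exact le_add_of_nonneg_right (sum_nonneg fun _ _ => sum_nonneg fun _ _ => sq_nonneg _)
    have hS2 : tmean (gibbs J y) F (fun x => S x ^ 2) ≤ G ^ 2 * n * T :=
      (tmean_mono hρ hF hS).trans (le_of_eq (tmean_const_mul _ _))
    have hs := hC2 n J y F (goodWords_mono hG ((le_max_left m2 _).trans (le_max_right _ _))) hF
    rw [← Real.sqrt_mul (tmean_nonneg hρ hF fun x => sq_nonneg _),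
      show G * √|C2| * √(D + 1) * √(T + 1) = √(G ^ 2 * (|C2| * (D + 1)) * (T + 1)) by
        rw [Real.sqrt_mul (by positivity), Real.sqrt_mul (sq_nonneg G),
          Real.sqrt_mul (abs_nonneg _), Real.sqrt_sq (by positivity)]
        ring]
    refine Real.sqrt_le_sqrt ?_
    calc tmean (gibbs J y) F (fun x => e x ^ 2) * tmean (gibbs J y) F (fun x => S x ^ 2)
        ≤ tmean (gibbs J y) F (fun x => e x ^ 2) * (G ^ 2 * n * T) :=
          mul_le_mul_of_nonneg_left hS2 (tmean_nonneg hρ hF fun x => sq_nonneg _)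
      _ = G ^ 2 * ((n : ℝ) * tmean (gibbs J y) F (fun x => e x ^ 2)) * T := by ring
      _ ≤ G ^ 2 * (|C2| * (D + 1)) * (T + 1) :=
          mul_le_mul (mul_le_mul_of_nonneg_left (hs.trans
            (mul_le_mul_of_nonneg_right (le_abs_self _) (by linarith))) (sq_nonneg G))
            (by linarith) hT0 (by positivity)
  have hid : ∀ x, (∑ i, ampD β J y (spins x) (k + 1) i * Ψ x i)
      - tracePair (ampL β J y (spins x) (k + 1)) Ψ x
      = ((∑ i, ampD β J y (spins x) k i * Φ1 x i) - tracePair (ampL β J y (spins x) k) Φ1 x)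
        - ((∑ i, ampD β J y (spins x) (k - 1) i * Φ2 x i)
          - tracePair (ampL β J y (spins x) (k - 1)) Φ2 x)
        + β ^ 2 * (e x * S x) + r x := fun x => by
    have hd : ∑ i, ampD β J y (spins x) (k + 1) i * Ψ x i
        = (∑ i, ampD β J y (spins x) k i * Φ1 x i) - (∑ i, ampD β J y (spins x) (k - 1) i * Φ2 x i)
          - ampDelta β J y (spins x) k * S x := by
      simp only [ampD_succ, Φ1, Φ2, S, mul_add, sum_add_distrib,
        ← sum_act_mul hG.1 (ampD β J y (spins x) k) (fun l => gF β J y k x l * Ψ x l), mul_sum]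
      simp only [← sum_add_distrib, ← sum_sub_distrib]
      exact sum_congr rfl fun i _ => by ring
    rw [hd]
    simp only [r, e, ampDelta]
    ring
  rw [← tmean_sub]
  simp only [hid, tmean_add, tmean_sub, tmean_const_mul]
  have a1 := abs_le.1 h1
  have a2 := abs_le.1 h2
  have a4 : β ^ 2 * |tmean (gibbs J y) F fun x => e x * S x|
      = |β ^ 2 * tmean (gibbs J y) F fun x => e x * S x| := by
    rw [abs_mul, abs_of_nonneg (sq_nonneg β)]
  have a5 := abs_le.1 (a4.symm.le.trans (mul_le_mul_of_nonneg_left he (sq_nonneg β)))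
  have a6 := abs_le.1 hr
  have hK2 : K * √(T + 1) ≤ K * √(D + 1) * √(T + 1) :=
    mul_le_mul_of_nonneg_right (le_mul_of_one_le_right hK0 hsD) (Real.sqrt_nonneg _)
  rw [abs_le]
  constructor <;> linarith

/-- The rule at every index. -/
theorem ruleAt (β : ℝ) : ∀ k, RuleAt β k
  | 0 => rule_zero β
  | 1 => rule_succ (rule_zero β) (rule_zero β)
  | k + 2 => rule_succ (ruleAt β (k + 1)) (ruleAt β k)

/-- The rule `E_ν d_k·Ψ ≈ E_ν tr (L_k ∇Ψ)`. -/
theorem ruleStatement (β : ℝ) : RuleStatement β := fun k => ruleAt β k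

/-- The top scalar is the drop of the squared norms. -/
theorem scalarStatement (β : ℝ) : ScalarStatement β := fun k => scalar_of_rule (ruleAt β k)

/-- Increments are orthogonal to functions of later iterates. -/
theorem testsStatement (β : ℝ) : TestsStatement β := testsStatement_of_rule (ruleStatement β)

/-- The step of the energy. -/
theorem energyStepStatement (β : ℝ) : EnergyStepStatement β :=
  energyStep_of_rule (ruleStatement β) (scalarStatement β)

end Vale.Agent.P150.Beta1.Rule
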