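import Vale.Agent.P150.Beta1.Algebra.Amp
import Vale.Agent.P150.Calculus

/-!
# Discrete gradients of vector observables

`jac w x` is the matrix of discrete derivatives. A field has gradient `X` up to `R` when the two
differ by at most `R` in squared Frobenius norm. Smooth functions of fields with small fourth
powers of the gradient keep this property, and so do products with scalars of gradient `O(n⁻¹ᐟ²)`.
-/

namespace Vale.Agent.P150.Beta1.Rule

open Finset Function Real Vale.Agent.P150.Beta1.Algebra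

variable {ι : Type*} [Fintype ι] [DecidableEq ι]

/-- The discrete Jacobian of a vector observable. -/
noncomputable def jac (w : (ι → Bool) → ι → ℝ) (x : ι → Bool) : Matrix ι ι ℝ :=
  Matrix.of fun i j => deriv2 j (fun z => w z i) x

/-- Action bounded by `K` in both directions. -/
def Act (K : ℝ) (X : Matrix ι ι ℝ) : Prop :=
  (∀ a : ι → ℝ, ∑ i, X.mulVec a i ^ 2 ≤ K * ∑ i, a i ^ 2) ∧
  ∀ a : ι → ℝ, ∑ i, X.transpose.mulVec a i ^ 2 ≤ K * ∑ i, a i ^ 2

/-- Sum of fourth powers. -/
def quart (X : Matrix ι ι ℝ) : ℝ := ∑ i, ∑ j, X i j ^ 4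

lemma testSq_eq (Ψ : (ι → Bool) → ι → ℝ) (x : ι → Bool) :
    testSq Ψ x = ∑ i, Ψ x i ^ 2 + frob (jac Ψ x) := rfl

lemma tracePair_eq (L : Matrix ι ι ℝ) (Ψ : (ι → Bool) → ι → ℝ) (x : ι → Bool) :
    tracePair L Ψ x = ∑ i, ∑ j, L j i * jac Ψ x i j := rfl

omit [DecidableEq ι] in
lemma frob_add_le (A B : Matrix ι ι ℝ) : frob (A + B) ≤ 2 * (frob A + frob B) := by
  simpa using frob_add_smul_le A B 1 1

omit [DecidableEq ι] in
lemma frob_smul (c : ℝ) (A : Matrix ι ι ℝ) : frob (c • A) = c ^ 2 * frob A := by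
  simp only [frob, Matrix.smul_apply, smul_eq_mul, mul_pow, mul_sum]

omit [DecidableEq ι] in
lemma frob_sub_le (A B : Matrix ι ι ℝ) : frob (A - B) ≤ 2 * (frob A + frob B) := by
  have h := frob_add_smul_le A B 1 (-1)
  simpa [sub_eq_add_neg] using h

lemma frob_diag_mul_le {e : ι → ℝ} {G : ℝ} (he : ∀ i, |e i| ≤ G) (A : Matrix ι ι ℝ) :
    frob (Matrix.diagonal e * A) ≤ G ^ 2 * frob A := by
  simp only [frob, Matrix.diagonal_mul, mul_pow, mul_sum]
  refine sum_le_sum fun i _ => sum_le_sum fun j _ => ?_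
  exact mul_le_mul_of_nonneg_right (sq_le_sq' (by linarith [abs_le.1 (he i)])
    (abs_le.1 (he i)).2) (sq_nonneg _)

omit [DecidableEq ι] in
lemma Act.frob_mul_le {K : ℝ} {X : Matrix ι ι ℝ} (h : Act K X) (R : Matrix ι ι ℝ) :
    frob (X * R) ≤ K * frob R := by
  simp only [frob]
  rw [sum_comm, sum_comm (f := fun i j => R i j ^ 2), mul_sum]
  exact sum_le_sum fun j _ => h.1 fun i => R i j

lemma Act.row_le {K : ℝ} {X : Matrix ι ι ℝ} (h : Act K X) (i : ι) : ∑ j, X i j ^ 2 ≤ K := by
  simpa [Matrix.mulVec, dotProduct, Matrix.transpose_apply, Pi.single_apply, ite_pow] using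
    h.2 (Pi.single i 1)

lemma Act.col_le {K : ℝ} {X : Matrix ι ι ℝ} (h : Act K X) (j : ι) : ∑ i, X i j ^ 2 ≤ K := by
  simpa [Matrix.mulVec, dotProduct, Pi.single_apply, ite_pow] using h.1 (Pi.single j 1)

lemma Act.entry_le {K : ℝ} {X : Matrix ι ι ℝ} (h : Act K X) (i j : ι) : X i j ^ 2 ≤ K :=
  (single_le_sum (f := fun j => X i j ^ 2) (fun _ _ => sq_nonneg _) (mem_univ j)).trans (h.row_le i)

lemma Act.frob_le {K : ℝ} {X : Matrix ι ι ℝ} (h : Act K X) : frob X ≤ K * Fintype.card ι := by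
  calc frob X ≤ ∑ _i : ι, K := sum_le_sum fun i _ => h.row_le i
    _ = _ := by simp [mul_comm]

omit [DecidableEq ι] in
/-- A Frobenius bound bounds the action. -/
lemma act_of_frob {R : ℝ} {X : Matrix ι ι ℝ} (h : frob X ≤ R) : Act R X := by
  have key : ∀ (Y : Matrix ι ι ℝ) (a : ι → ℝ),
      ∑ i, Y.mulVec a i ^ 2 ≤ frob Y * ∑ i, a i ^ 2 := fun Y a => by
    rw [frob, sum_mul]
    exact sum_le_sum fun i _ => sum_mul_sq_le_sq_mul_sq _ _ _
  refine ⟨fun a => (key X a).trans ?_, fun a => (key X.transpose a).trans ?_⟩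
  · exact mul_le_mul_of_nonneg_right h (sum_nonneg fun _ _ => sq_nonneg _)
  · rw [frob_transpose]
    exact mul_le_mul_of_nonneg_right h (sum_nonneg fun _ _ => sq_nonneg _)

omit [DecidableEq ι] in
lemma Act.add {K L : ℝ} {X Y : Matrix ι ι ℝ} (hX : Act K X) (hY : Act L Y) :
    Act (2 * (K + L)) (X + Y) := by
  have key : ∀ (P Q : Matrix ι ι ℝ) (a : ι → ℝ), ∑ i, P.mulVec a i ^ 2 ≤ K * ∑ i, a i ^ 2 →
      ∑ i, Q.mulVec a i ^ 2 ≤ L * ∑ i, a i ^ 2 →
      ∑ i, (P + Q).mulVec a i ^ 2 ≤ 2 * (K + L) * ∑ i, a i ^ 2 := fun P Q a hP hQ => by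
    have := sum_le_sum (s := (univ : Finset ι)) fun i _ =>
      add_sq_le (a := P.mulVec a i) (b := Q.mulVec a i)
    rw [← mul_sum, sum_add_distrib] at this
    simp only [Matrix.add_mulVec, Pi.add_apply]
    linarith
  refine ⟨fun a => key X Y a (hX.1 a) (hY.1 a), fun a => ?_⟩
  rw [Matrix.transpose_add]
  exact key _ _ a (hX.2 a) (hY.2 a)

/-- The transposed expression. -/
def transp : Expr ι → Expr ι
  | .coup => .coup
  | .diag e => .diag e
  | .add X Y => .add (transp X) (transp Y)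
  | .mul X Y => .mul (transp Y) (transp X)

omit [Fintype ι] [DecidableEq ι] in
lemma transp_deg [Fintype ι] : ∀ X : Expr ι, (transp X).deg = X.deg
  | .coup => rfl
  | .diag _ => rfl
  | .add X Y => by simp [transp, Expr.deg, transp_deg X, transp_deg Y]
  | .mul X Y => by simp [transp, Expr.deg, transp_deg X, transp_deg Y, add_comm]

omit [DecidableEq ι] in
lemma transp_size : ∀ X : Expr ι, (transp X).size = X.size
  | .coup => rfl
  | .diag _ => rfl
  | .add X Y => by simp [transp, Expr.size, transp_size X, transp_size Y]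
  | .mul X Y => by simp [transp, Expr.size, transp_size X, transp_size Y, mul_comm]

lemma transp_mat {J : ι → ι → ℝ} (hs : ∀ i j, J i j = J j i) :
    ∀ X : Expr ι, (transp X).mat J = (X.mat J).transpose
  | .coup => by ext i j; simp [transp, Expr.mat, hs i j]
  | .diag _ => by simp [transp, Expr.mat]
  | .add X Y => by simp [transp, Expr.mat, transp_mat hs X, transp_mat hs Y]
  | .mul X Y => by simp [transp, Expr.mat, transp_mat hs X, transp_mat hs Y, Matrix.transpose_mul]

variable {β C : ℝ} {m : ℕ} {J : ι → ι → ℝ}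

/-- Expressions act boundedly. -/
lemma expr_act (h : GoodWords β m C J) (X : Expr ι) {d : ℕ} {S : ℝ} (hd : X.deg ≤ d)
    (hs : X.size ≤ S) : Act (max C 1 ^ d * S ^ 2) (X.mat J) := by
  have hmono : max C 1 ^ X.deg * X.size ^ 2 ≤ max C 1 ^ d * S ^ 2 :=
    mul_le_mul (pow_le_pow_right₀ (le_max_right _ _) hd) (pow_le_pow_left₀ X.size_nonneg hs 2)
      (sq_nonneg _) (pow_nonneg (le_max_of_le_right zero_le_one) _)
  refine ⟨fun a => (X.act_le h a).trans
    (mul_le_mul_of_nonneg_right hmono (sum_nonneg fun _ _ => sq_nonneg _)), fun a => ?_⟩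
  rw [← transp_mat h.1]
  refine ((transp X).act_le h a).trans ?_
  rw [transp_deg, transp_size]
  exact mul_le_mul_of_nonneg_right hmono (sum_nonneg fun _ _ => sq_nonneg _)

/-- Expressions with zero free diagonal have bounded fourth powers. -/
lemma expr_quart (h : GoodWords β m C J) (X : Expr ι) (hd : X.deg ≤ m)
    (h0 : ∀ i, X.free β i = 0) :
    quart (X.mat J) ≤ (C + C ^ 2) * X.size ^ 4 := by
  have hdiag : ∑ i, X.mat J i i ^ 4 ≤ (C * X.size ^ 2) ^ 2 := by
    refine le_trans ?_ (pow_le_pow_left₀ (sum_nonneg fun _ _ => sq_nonneg _) (X.diag_le h hd) 2)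
    simp only [h0, sub_zero, show (∀ i, X.mat J i i ^ 4 = (X.mat J i i ^ 2) ^ 2) from
      fun i => by ring]
    exact sum_sq_le_sq_sum_of_nonneg fun i _ => sq_nonneg _
  have hsplit : quart (X.mat J)
      = ∑ i, X.mat J i i ^ 4 + ∑ i, ∑ j, (if i = j then 0 else X.mat J i j ^ 4) := by
    rw [quart, ← sum_add_distrib]
    refine sum_congr rfl fun i _ => ?_
    rw [← add_sum_erase _ _ (mem_univ i), ← add_sum_erase _ _ (mem_univ i), if_pos rfl, zero_add]
    refine congrArg _ (sum_congr rfl fun j hj => ?_)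
    rw [if_neg (Ne.symm (ne_of_mem_erase hj))]
  rw [hsplit]
  linarith [X.offdiag_le h hd]

omit [DecidableEq ι] in
/-- Fourth powers of a gradient known up to a small Frobenius error. -/
lemma quart_le_of_frob (Y X : Matrix ι ι ℝ) :
    quart Y ≤ 8 * (quart X + frob (Y - X) ^ 2) := by
  have h1 : ∀ a b : ℝ, a ^ 4 ≤ 8 * (b ^ 4 + (a - b) ^ 4) := fun a b => by
    nlinarith [sq_nonneg (a - 2 * b), sq_nonneg (a ^ 2 - 4 * b ^ 2 + 2 * a * b),
      sq_nonneg (b ^ 2 - (a - b) ^ 2), sq_nonneg (a - b - b), sq_nonneg (a - b + b),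
      mul_self_nonneg (b * (a - b))]
  have h2 : quart (Y - X) ≤ frob (Y - X) ^ 2 := by
    simp only [quart, frob, show (∀ t : ℝ, t ^ 4 = (t ^ 2) ^ 2) from fun t => by ring]
    refine le_trans (sum_le_sum fun i _ => sum_sq_le_sq_sum_of_nonneg fun j _ => sq_nonneg _) ?_
    exact sum_sq_le_sq_sum_of_nonneg fun i _ => sum_nonneg fun j _ => sq_nonneg _
  have h3 : quart Y ≤ 8 * (quart X + quart (Y - X)) := by
    simp only [quart, ← sum_add_distrib, mul_sum, Matrix.sub_apply]
    exact sum_le_sum fun i _ => sum_le_sum fun j _ => h1 _ _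
  linarith

omit [Fintype ι] in
lemma sub_flip (j : ι) (f : (ι → Bool) → ℝ) (x : ι → Bool) :
    f (update x j (!x j)) - f x = -2 * spin (x j) * deriv2 j f x := by
  have h := (update_eq_self j x)
  cases hb : x j <;> rw [hb] at h <;> simp only [deriv2, spin, Bool.not_true, Bool.not_false, h,
    Bool.false_eq_true, if_false, if_true] <;> ring

omit [Fintype ι] in
lemma deriv2_eq_flip (j : ι) (f : (ι → Bool) → ℝ) (x : ι → Bool) :
    deriv2 j f x = -(spin (x j) / 2) * (f (update x j (!x j)) - f x) := by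
  rw [sub_flip]
  rcases spin_cases (x j) with h | h <;> rw [h] <;> ring

/-- First-order expansion of a function of three fields. -/
theorem jac_comp3 (f : ℝ → ℝ → ℝ → ℝ) (u v w : (ι → Bool) → ι → ℝ) (x : ι → Bool)
    (a b c : ι → ℝ) {G : ℝ}
    (hf : ∀ i z, |f (u z i) (v z i) (w z i) - f (u x i) (v x i) (w x i)
      - a i * (u z i - u x i) - b i * (v z i - v x i) - c i * (w z i - w x i)|
      ≤ G * ((u z i - u x i) ^ 2 + (v z i - v x i) ^ 2 + (w z i - w x i) ^ 2)) :
    frob (jac (fun z i => f (u z i) (v z i) (w z i)) x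
      - (Matrix.diagonal a * jac u x + Matrix.diagonal b * jac v x
        + Matrix.diagonal c * jac w x))
      ≤ 12 * G ^ 2 * (quart (jac u x) + quart (jac v x) + quart (jac w x)) := by
  simp only [frob, quart, ← sum_add_distrib, mul_sum]
  refine sum_le_sum fun i _ => sum_le_sum fun j _ => ?_
  simp only [Matrix.sub_apply, Matrix.add_apply, Matrix.diagonal_mul, jac, Matrix.of_apply]
  have h := hf i (update x j (!x j))
  have eu := sub_flip j (fun z => u z i) x
  have ev := sub_flip j (fun z => v z i) x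
  have ew := sub_flip j (fun z => w z i) x
  have ef := sub_flip j (fun z => f (u z i) (v z i) (w z i)) x
  rw [eu, ev, ew, ef] at h
  set s := spin (x j)
  set Du := deriv2 j (fun z => u z i) x
  set Dv := deriv2 j (fun z => v z i) x
  set Dw := deriv2 j (fun z => w z i) x
  set Df := deriv2 j (fun z => f (u z i) (v z i) (w z i)) x
  have hs : s ^ 2 = 1 := by
    rcases spin_cases (x j) with h1 | h1 <;> simp only [s, h1] <;> norm_num
  have e1 : -2 * s * Df - a i * (-2 * s * Du) - b i * (-2 * s * Dv) - c i * (-2 * s * Dw)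
      = -2 * s * (Df - (a i * Du + b i * Dv + c i * Dw)) := by ring
  have e2 : (-2 * s * Du) ^ 2 + (-2 * s * Dv) ^ 2 + (-2 * s * Dw) ^ 2
      = 4 * (Du ^ 2 + Dv ^ 2 + Dw ^ 2) := by
    linear_combination 4 * (Du ^ 2 + Dv ^ 2 + Dw ^ 2) * hs
  rw [e1, e2] at h
  have hS : |s| = 1 := (pow_eq_one_iff_of_nonneg (abs_nonneg s) two_ne_zero).1 (by rw [sq_abs, hs])
  rw [abs_mul, abs_mul, abs_neg, hS, abs_of_pos (two_pos (α := ℝ))] at h
  set E := Df - (a i * Du + b i * Dv + c i * Dw)
  set Q := Du ^ 2 + Dv ^ 2 + Dw ^ 2 with hQ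
  have hE : E ^ 2 ≤ (2 * G * Q) ^ 2 := by
    refine sq_le_sq' ?_ ?_ <;> linarith [neg_abs_le E, le_abs_self E]
  have hQ2 : Q ^ 2 ≤ 3 * (Du ^ 4 + Dv ^ 4 + Dw ^ 4) := by
    rw [hQ]
    nlinarith [sq_nonneg (Du ^ 2 - Dv ^ 2), sq_nonneg (Du ^ 2 - Dw ^ 2),
      sq_nonneg (Dv ^ 2 - Dw ^ 2)]
  calc E ^ 2 ≤ (2 * G * Q) ^ 2 := hE
    _ = 4 * G ^ 2 * Q ^ 2 := by ring
    _ ≤ 4 * G ^ 2 * (3 * (Du ^ 4 + Dv ^ 4 + Dw ^ 4)) :=
        mul_le_mul_of_nonneg_left hQ2 (by positivity)
    _ = _ := by ring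

/-- `n` times the squared gradient of a scalar observable. -/
noncomputable def scGrad (s : (ι → Bool) → ℝ) (x : ι → Bool) : ℝ :=
  Fintype.card ι * ∑ j, deriv2 j s x ^ 2

lemma scGrad_eq_frob (s : (ι → Bool) → ℝ) (x : ι → Bool) :
    scGrad s x = frob (jac (fun z _ => s z) x) := by
  simp [scGrad, frob, jac]

lemma scGrad_nonneg (s : (ι → Bool) → ℝ) (x : ι → Bool) : 0 ≤ scGrad s x :=
  mul_nonneg (Nat.cast_nonneg _) (sum_nonneg fun _ _ => sq_nonneg _)

/-- The average of a field with bounded action of its gradient. -/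
lemma scGrad_avg {K : ℝ} (hK : 0 ≤ K) (w : (ι → Bool) → ι → ℝ) (x : ι → Bool)
    (h : Act K (jac w x)) : scGrad (fun z => avg (w z)) x ≤ K := by
  rcases isEmpty_or_nonempty ι with hι | hι
  · simpa [scGrad] using hK
  have hn : (0 : ℝ) < Fintype.card ι := by exact_mod_cast Fintype.card_pos
  have e : ∀ j, deriv2 j (fun z => avg (w z)) x
      = (jac w x).transpose.mulVec (fun _ => 1) j / Fintype.card ι := fun j => by
    simp only [deriv2, avg, jac, Matrix.mulVec, dotProduct, Matrix.transpose_apply,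
      Matrix.of_apply, mul_one, ← sum_div, sum_sub_distrib]
    ring
  have h1 := h.2 fun _ => 1
  simp only [one_pow, sum_const, card_univ, nsmul_one] at h1
  simp only [scGrad, e, div_pow, ← sum_div]
  rw [← mul_div_assoc, div_le_iff₀ (by positivity)]
  nlinarith [h1, sum_nonneg fun j (_ : j ∈ univ) =>
    sq_nonneg ((jac w x).transpose.mulVec (fun _ => (1 : ℝ)) j)]

/-- Product of a scalar and a field. -/
lemma jac_scalar_mul (s : (ι → Bool) → ℝ) (w : (ι → Bool) → ι → ℝ) (x : ι → Bool) {W K : ℝ}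
    (hw : ∑ i, w x i ^ 2 ≤ W * Fintype.card ι)
    (hK : frob (jac w x) ≤ K * Fintype.card ι) :
    frob (jac (fun z i => s z * w z i) x - s x • jac w x) ≤ scGrad s x * (2 * W + 8 * K) := by
  set d := fun j => deriv2 j s x
  have hd : ∀ j, d j ^ 2 ≤ ∑ l, d l ^ 2 := fun j =>
    single_le_sum (f := fun l => d l ^ 2) (fun _ _ => sq_nonneg _) (mem_univ j)
  have hj : ∀ i j, (jac (fun z i => s z * w z i) x - s x • jac w x) i j
      = d j * w x i - 2 * spin (x j) * d j * jac w x i j := fun i j => by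
    have e1 := sub_flip j s x
    have e2 := sub_flip j (fun z => w z i) x
    have e3 := deriv2_eq_flip j (fun z => s z * w z i) x
    rw [eq_add_of_sub_eq e1, eq_add_of_sub_eq e2] at e3
    rw [Matrix.sub_apply, Matrix.smul_apply, smul_eq_mul]
    show deriv2 j (fun z => s z * w z i) x - s x * deriv2 j (fun z => w z i) x
      = d j * w x i - 2 * spin (x j) * d j * deriv2 j (fun z => w z i) x
    rw [e3]
    simp only [d]
    rcases spin_cases (x j) with h | h <;> rw [h] <;> ring
  calc frob (jac (fun z i => s z * w z i) x - s x • jac w x)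
      ≤ ∑ i, ∑ j, (2 * w x i ^ 2 * d j ^ 2 + 8 * (∑ l, d l ^ 2) * jac w x i j ^ 2) := by
        refine sum_le_sum fun i _ => sum_le_sum fun j _ => ?_
        rw [hj]
        have hp := mul_le_mul_of_nonneg_right (hd j) (sq_nonneg (jac w x i j))
        have hsp : spin (x j) ^ 2 = 1 := by
          rcases spin_cases (x j) with h | h <;> rw [h] <;> norm_num
        have e : (2 * spin (x j) * d j * jac w x i j) ^ 2 = 4 * (d j ^ 2 * jac w x i j ^ 2) := by
          linear_combination 4 * d j ^ 2 * jac w x i j ^ 2 * hsp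
        nlinarith [sq_nonneg (d j * w x i + 2 * spin (x j) * d j * jac w x i j)]
    _ = (∑ i, w x i ^ 2) * (2 * ∑ j, d j ^ 2) + 8 * (∑ l, d l ^ 2) * frob (jac w x) := by
        simp only [sum_add_distrib, frob, ← mul_sum, ← sum_mul]
        congr 1
        simp only [mul_sum, sum_mul]
        exact sum_congr rfl fun i _ => sum_congr rfl fun j _ => by ring
    _ ≤ W * Fintype.card ι * (2 * ∑ j, d j ^ 2)
        + 8 * (∑ l, d l ^ 2) * (K * Fintype.card ι) :=
      add_le_add (mul_le_mul_of_nonneg_right hw (by positivity))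
        (mul_le_mul_of_nonneg_left hK (by positivity))
    _ = _ := by simp only [scGrad, d]; ring

omit [Fintype ι] in
lemma deriv2_mul (j : ι) (s t : (ι → Bool) → ℝ) (x : ι → Bool) :
    deriv2 j (fun z => s z * t z) x
      = deriv2 j s x * ((t (update x j true) + t (update x j false)) / 2)
        + deriv2 j t x * ((s (update x j true) + s (update x j false)) / 2) := by
  simp only [deriv2]
  ring

/-- Product of bounded scalars. -/
lemma scGrad_mul (s t : (ι → Bool) → ℝ) (x : ι → Bool) {A B : ℝ} (hs : ∀ z, |s z| ≤ A)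
    (ht : ∀ z, |t z| ≤ B) :
    scGrad (fun z => s z * t z) x ≤ 2 * B ^ 2 * scGrad s x + 2 * A ^ 2 * scGrad t x := by
  simp only [scGrad, deriv2_mul, mul_sum, ← sum_add_distrib]
  refine sum_le_sum fun j _ => ?_
  have hsj : |(s (update x j true) + s (update x j false)) / 2| ≤ A := by
    rw [abs_le]
    constructor <;> linarith [abs_le.1 (hs (update x j true)), abs_le.1 (hs (update x j false))]
  have htj : |(t (update x j true) + t (update x j false)) / 2| ≤ B := by
    rw [abs_le]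
    constructor <;> linarith [abs_le.1 (ht (update x j true)), abs_le.1 (ht (update x j false))]
  have h1 := sq_le_sq' (abs_le.1 hsj).1 (abs_le.1 hsj).2
  have h2 := sq_le_sq' (abs_le.1 htj).1 (abs_le.1 htj).2
  have hn : (0 : ℝ) ≤ Fintype.card ι := Nat.cast_nonneg _
  have := add_le_add (mul_le_mul_of_nonneg_left h2 (sq_nonneg (deriv2 j s x)))
    (mul_le_mul_of_nonneg_left h1 (sq_nonneg (deriv2 j t x)))
  refine le_trans (mul_le_mul_of_nonneg_left add_sq_le hn) ?_
  rw [mul_pow, mul_pow]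
  nlinarith [mul_le_mul_of_nonneg_left this hn]

lemma scGrad_add_le (s t : (ι → Bool) → ℝ) (x : ι → Bool) (p q : ℝ) :
    scGrad (fun z => p * s z + q * t z) x ≤ 2 * (p ^ 2 * scGrad s x + q ^ 2 * scGrad t x) := by
  have e : ∀ j, deriv2 j (fun z => p * s z + q * t z) x
      = p * deriv2 j s x + q * deriv2 j t x := fun j => by simp only [deriv2]; ring
  simp only [scGrad, e, mul_sum, ← sum_add_distrib]
  refine sum_le_sum fun j _ => ?_
  refine le_trans (mul_le_mul_of_nonneg_left add_sq_le (Nat.cast_nonneg _)) (le_of_eq ?_)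
  ring

omit [Fintype ι] in
lemma jac_spins (x : ι → Bool) : jac (fun z => spins z) x = 1 := by
  ext i j
  rcases eq_or_ne i j with rfl | h
  · simp [jac, deriv2, spins, spin]
  · simp [jac, deriv2, spins, Matrix.one_apply_ne h, update_of_ne h]

lemma jac_act (J : ι → ι → ℝ) (w : (ι → Bool) → ι → ℝ) (x : ι → Bool) :
    jac (fun z i => act J (w z) i) x = Matrix.of J * jac w x := by
  ext i j
  simp only [jac, Matrix.of_apply, Matrix.mul_apply, deriv2, act, ← sum_sub_distrib, sum_div]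
  exact sum_congr rfl fun l _ => by ring

end Vale.Agent.P150.Beta1.Rule
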