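import Vale.Agent.P150.Beta1.Defs

/-!
# Integration by parts for heat bath under a tilt

`x i - tanh (field i)` paired with an observable equals `localVar · deriv2` of it, up to the
square root of the Dirichlet form of the square root of the tilt.
-/

namespace Vale.Agent.P150.Beta1.Rule

open Finset Function Real

variable {ι : Type*} [Fintype ι] [DecidableEq ι]
variable {J : ι → ι → ℝ} {h : ι → ℝ}

/-- Conditional mean of an observable, for functions of the other spins. -/
lemma mean_mul_resample_eq (hsymm : ∀ i j, J i j = J j i) (hdiag : ∀ i, J i i = 0) (i : ι)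
    (f G : (ι → Bool) → ℝ) (hG : ∀ x b, G (update x i b) = G x) :
    mean (gibbs J h) (fun x => f x * G x)
      = mean (gibbs J h) (fun x => resample (gibbs J h) i f x * G x) := by
  have h0 := mean_mul_resid (h := h) hsymm hdiag i f G hG
  simp only [← sub_resample hsymm hdiag i f] at h0
  simp only [mean] at h0 ⊢
  rw [← sub_eq_zero, ← sum_sub_distrib, ← h0]
  exact sum_congr rfl fun x _ => by ring

omit [DecidableEq ι] in
lemma spin_sq (b : Bool) : spin b ^ 2 = 1 := by cases b <;> simp [spin]

omit [Fintype ι] in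
lemma update_eq_flip (i : ι) (x : ι → Bool) (f : (ι → Bool) → ℝ) :
    f x = (f (update x i true) + f (update x i false)) / 2 + spin (x i) * deriv2 i f x := by
  conv_lhs => rw [← update_eq_self i x]
  cases x i <;> simp [spin, deriv2] <;> ring

/-- Integration by parts at one site. -/
lemma mean_ibp (hsymm : ∀ i j, J i j = J j i) (hdiag : ∀ i, J i i = 0) (i : ι)
    (u : (ι → Bool) → ℝ) :
    mean (gibbs J h) (fun x => (spin (x i) - localMean J h i x) * u x)
      = mean (gibbs J h) (fun x => localVar J h i x * deriv2 i u x) := by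
  set A := fun x => (u (update x i true) + u (update x i false)) / 2 with hA
  have hAi : ∀ x b, A (update x i b) = A x := fun x b => by simp [hA]
  have hmi : ∀ x b, localMean J h i (update x i b) = localMean J h i x :=
    localMean_update_self hdiag i
  have hres : ∀ x, resample (gibbs J h) i (fun x => spin (x i)) x = localMean J h i x := fun x => by
    rw [resample_eq hsymm hdiag]
    simp [spin]
    ring
  have h1 := mean_mul_resample_eq (h := h) hsymm hdiag i (fun x => spin (x i)) A hAi
  have h2 := mean_mul_resample_eq (h := h) hsymm hdiag i (fun x => spin (x i))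
    (fun x => localMean J h i x * deriv2 i u x)
    (fun x b => by simp only [hmi, deriv2_update_self])
  simp only [hres, mean] at h1 h2
  simp only [mean, localVar]
  rw [← sub_eq_zero, ← sum_sub_distrib]
  calc _ = (∑ x, gibbs J h x * (spin (x i) * A x))
        - (∑ x, gibbs J h x * (localMean J h i x * A x))
        - ((∑ x, gibbs J h x * (spin (x i) * (localMean J h i x * deriv2 i u x)))
          - ∑ x, gibbs J h x * (localMean J h i x * (localMean J h i x * deriv2 i u x))) := by
        simp only [← sum_sub_distrib]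
        refine sum_congr rfl fun x _ => ?_
        rw [update_eq_flip i x u, hA]
        linear_combination (gibbs J h x * deriv2 i u x) * spin_sq (x i)
    _ = 0 := by rw [h1, h2]; ring

/-- Integration by parts against a positive tilt. -/
theorem ibp_bound (hsymm : ∀ i j, J i j = J j i) (hdiag : ∀ i, J i i = 0)
    (F : (ι → Bool) → ℝ) (hF : ∀ x, 0 < F x) (Φ : (ι → Bool) → ι → ℝ) :
    |mean (gibbs J h) (fun x => F x * ∑ i, ((spin (x i) - localMean J h i x) * Φ x i
        - localVar J h i x * deriv2 i (fun z => Φ z i) x))|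
      ≤ 8 * √(dirichlet (gibbs J h) fun x => √(F x))
        * √(mean (gibbs J h) fun x => F x * testSq Φ x) := by
  set ρ := gibbs J h
  have hρ : ∀ x, 0 ≤ ρ x := fun x => (gibbs_pos x).le
  set f := fun x => √(F x) with hf
  set a : ι → (ι → Bool) → ℝ := fun i x =>
    localVar J h i x * deriv2 i F x * ((Φ (update x i true) i + Φ (update x i false) i) / 2
      - localMean J h i x * deriv2 i (fun z => Φ z i) x) with ha
  have hsplit : mean ρ (fun x => F x * ∑ i, ((spin (x i) - localMean J h i x) * Φ x i
      - localVar J h i x * deriv2 i (fun z => Φ z i) x)) = ∑ i, mean ρ (a i) := by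
    simp only [mean, mul_sum]
    rw [sum_comm]
    refine sum_congr rfl fun i _ => ?_
    have hib := mean_ibp (h := h) hsymm hdiag i (fun x => F x * Φ x i)
    have hG := mean_mul_resample_eq (h := h) hsymm hdiag i (fun x => spin (x i))
      (fun x => localVar J h i x * deriv2 i F x * deriv2 i (fun z => Φ z i) x)
      (fun x b => by
        simp only [localVar, localMean_update_self hdiag, deriv2_update_self])
    have hres : ∀ x, resample (gibbs J h) i (fun x => spin (x i)) x = localMean J h i x :=
      fun x => by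
        rw [resample_eq hsymm hdiag]
        simp [spin]
        ring
    simp only [hres, mean] at hG
    simp only [mean] at hib
    calc ∑ x, ρ x * (F x * ((spin (x i) - localMean J h i x) * Φ x i
          - localVar J h i x * deriv2 i (fun z => Φ z i) x))
        = (∑ x, ρ x * ((spin (x i) - localMean J h i x) * (F x * Φ x i)))
          - ∑ x, ρ x * (localVar J h i x * (F x * deriv2 i (fun z => Φ z i) x)) := by
          rw [← sum_sub_distrib]
          exact sum_congr rfl fun x _ => by ring
      _ = (∑ x, ρ x * a i x) + ((∑ x, ρ x * (localMean J h i x * (localVar J h i x * deriv2 i F x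
            * deriv2 i (fun z => Φ z i) x)))
          - ∑ x, ρ x * (spin (x i) * (localVar J h i x * deriv2 i F x
            * deriv2 i (fun z => Φ z i) x))) := by
          rw [hib, ← sum_sub_distrib, ← sum_sub_distrib, ← sum_add_distrib]
          refine sum_congr rfl fun x _ => ?_
          have e := update_eq_flip i x F
          simp only [ha, deriv2] at e ⊢
          rw [e]
          ring
      _ = ∑ x, ρ x * a i x := by rw [hG]; ring
  rw [hsplit]
  set p : ι → (ι → Bool) → ℝ := fun i x => localVar J h i x * deriv2 i f x ^ 2 with hp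
  set q : ι → (ι → Bool) → ℝ := fun i x =>
    8 * resample ρ i F x * ((Φ (update x i true) i) ^ 2 + (Φ (update x i false) i) ^ 2) with hq
  have hv0 : ∀ i x, 0 ≤ localVar J h i x := fun i x => by
    simp only [localVar, localMean]
    exact sub_nonneg.2 ((sq_le_one_iff_abs_le_one _).2 (abs_tanh_lt_one _).le)
  have hr0 : ∀ i x, 0 ≤ resample ρ i F x := fun i x =>
    div_nonneg (add_nonneg (mul_nonneg (hρ _) (hF _).le) (mul_nonneg (hρ _) (hF _).le))
      (add_nonneg (hρ _) (hρ _))
  have hbound : ∀ i x, (ρ x * a i x) ^ 2 ≤ (ρ x * p i x) * (ρ x * q i x) := by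
    intro i x
    have hfsq : ∀ z, F z = f z ^ 2 := fun z => (sq_sqrt (hF z).le).symm
    have hdF : deriv2 i F x = deriv2 i f x * (f (update x i true) + f (update x i false)) := by
      simp only [deriv2, hfsq]
      ring
    have hr := resample_eq (h := h) hsymm hdiag i F x
    simp only [hfsq] at hr
    simp only [ha, hp, hq]
    rw [show resample ρ i F x = ((1 + localMean J h i x) * f (update x i true) ^ 2
        + (1 - localMean J h i x) * f (update x i false) ^ 2) / 2 from hr, hdF]
    simp only [localVar]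
    set m := localMean J h i x
    set fp := f (update x i true)
    set fm := f (update x i false)
    set A := Φ (update x i true) i
    set B := Φ (update x i false) i
    set D := deriv2 i f x
    have hm : |m| ≤ 1 := (abs_tanh_lt_one _).le
    have hD' : deriv2 i (fun z => Φ z i) x = (A - B) / 2 := rfl
    rw [hD']
    have hm1 : 0 ≤ 1 + m := by linarith [neg_abs_le m]
    have hm2 : 0 ≤ 1 - m := by linarith [le_abs_self m]
    have e1 : (1 - m ^ 2) * (fp + fm) ^ 2 ≤ 4 * ((1 + m) * fp ^ 2 + (1 - m) * fm ^ 2) := by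
      nlinarith [mul_nonneg hm1 hm2, sq_nonneg (fp - fm), mul_nonneg hm1 (sq_nonneg fp),
        mul_nonneg hm2 (sq_nonneg fm), mul_nonneg (mul_nonneg hm1 hm1) (sq_nonneg fp),
        mul_nonneg (mul_nonneg hm2 hm2) (sq_nonneg fm)]
    have e2 : ((A + B) / 2 - m * ((A - B) / 2)) ^ 2 ≤ A ^ 2 + B ^ 2 := by
      nlinarith [sq_nonneg ((1 + m) * A - (1 - m) * B), mul_nonneg hm1 hm2, sq_nonneg A,
        sq_nonneg B, mul_nonneg (mul_nonneg hm1 hm2) (sq_nonneg A),
        mul_nonneg (mul_nonneg hm1 hm2) (sq_nonneg B)]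
    have e12 := mul_le_mul e1 e2 (sq_nonneg _)
      (mul_nonneg (by norm_num) (add_nonneg (mul_nonneg hm1 (sq_nonneg _))
        (mul_nonneg hm2 (sq_nonneg _))))
    have hk : 0 ≤ ρ x ^ 2 * ((1 - m ^ 2) * D ^ 2) :=
      mul_nonneg (sq_nonneg _) (mul_nonneg (by nlinarith [mul_nonneg hm1 hm2]) (sq_nonneg _))
    calc (ρ x * ((1 - m ^ 2) * (D * (fp + fm)) * ((A + B) / 2 - m * ((A - B) / 2)))) ^ 2
        = ρ x ^ 2 * ((1 - m ^ 2) * D ^ 2)
          * ((1 - m ^ 2) * (fp + fm) ^ 2 * ((A + B) / 2 - m * ((A - B) / 2)) ^ 2) := by ring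
      _ ≤ ρ x ^ 2 * ((1 - m ^ 2) * D ^ 2)
          * (4 * ((1 + m) * fp ^ 2 + (1 - m) * fm ^ 2) * (A ^ 2 + B ^ 2)) :=
          mul_le_mul_of_nonneg_left e12 hk
      _ = ρ x * ((1 - m ^ 2) * D ^ 2)
          * (ρ x * (8 * (((1 + m) * fp ^ 2 + (1 - m) * fm ^ 2) / 2) * (A ^ 2 + B ^ 2))) := by ring
  have hcs : (∑ i, mean ρ (a i)) ^ 2 ≤ (∑ i, mean ρ (p i)) * ∑ i, mean ρ (q i) := by
    have := sum_sq_le_sum_mul_sum_of_sq_le_mul (univ : Finset (ι × (ι → Bool)))
      (r := fun z => ρ z.2 * a z.1 z.2) (f := fun z => ρ z.2 * p z.1 z.2)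
      (g := fun z => ρ z.2 * q z.1 z.2)
      (fun z _ => mul_nonneg (hρ _) (mul_nonneg (hv0 _ _) (sq_nonneg _)))
      (fun z _ => mul_nonneg (hρ _) (mul_nonneg (mul_nonneg (by norm_num) (hr0 _ _))
        (add_nonneg (sq_nonneg _) (sq_nonneg _)))) fun z _ => hbound z.1 z.2
    simpa only [Fintype.sum_prod_type, mean] using this
  have hpD : ∑ i, mean ρ (p i) = dirichlet ρ f := (dirichlet_eq_dirWeight hsymm hdiag f).symm
  have hq_le : ∑ i, mean ρ (q i) ≤ 64 * mean ρ (fun x => F x * testSq Φ x) := by
    have hi : ∀ i, mean ρ (q i) = ∑ x, ρ x * (F x *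
        (8 * ((Φ (update x i true) i) ^ 2 + (Φ (update x i false) i) ^ 2))) := fun i => by
      have := mean_mul_resample_eq (h := h) hsymm hdiag i F
        (fun x => 8 * ((Φ (update x i true) i) ^ 2 + (Φ (update x i false) i) ^ 2))
        (fun x b => by simp)
      simp only [mean] at this ⊢
      rw [this]
      exact sum_congr rfl fun x _ => by simp only [hq]; ring
    simp only [hi]
    rw [sum_comm, mean, mul_sum]
    refine sum_le_sum fun x _ => ?_
    simp only [← mul_sum, testSq]
    have hsite : ∀ i, (Φ (update x i true) i) ^ 2 + (Φ (update x i false) i) ^ 2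
        ≤ 8 * Φ x i ^ 2 + 8 * deriv2 i (fun z => Φ z i) x ^ 2 := fun i => by
      have e := update_eq_flip i x (fun z => Φ z i)
      simp only [deriv2] at e ⊢
      rcases spin_cases (x i) with hs | hs <;> rw [hs] at e <;> rw [e] <;>
        nlinarith [sq_nonneg (Φ (update x i true) i), sq_nonneg (Φ (update x i false) i),
          sq_nonneg (2 * Φ (update x i true) i - Φ (update x i false) i),
          sq_nonneg (2 * Φ (update x i false) i - Φ (update x i true) i)]
    have hdd : ∑ i, deriv2 i (fun z => Φ z i) x ^ 2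
        ≤ ∑ i, ∑ j, deriv2 j (fun z => Φ z i) x ^ 2 :=
      sum_le_sum fun i _ => single_le_sum
        (f := fun j => deriv2 j (fun z => Φ z i) x ^ 2) (fun j _ => sq_nonneg _) (mem_univ i)
    have hsum := sum_le_sum (s := (univ : Finset ι)) fun i _ => hsite i
    rw [sum_add_distrib (f := fun i => 8 * Φ x i ^ 2), ← mul_sum, ← mul_sum] at hsum
    calc ρ x * (F x * (8 * ∑ i, ((Φ (update x i true) i) ^ 2 + (Φ (update x i false) i) ^ 2)))
        ≤ ρ x * (F x * (8 * (8 * ∑ i, Φ x i ^ 2
            + 8 * ∑ i, deriv2 i (fun z => Φ z i) x ^ 2))) := by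
          exact mul_le_mul_of_nonneg_left (mul_le_mul_of_nonneg_left
            (mul_le_mul_of_nonneg_left hsum (by norm_num)) (hF x).le) (hρ x)
      _ ≤ ρ x * (F x * (8 * (8 * ∑ i, Φ x i ^ 2
            + 8 * ∑ i, ∑ j, deriv2 j (fun z => Φ z i) x ^ 2))) :=
          mul_le_mul_of_nonneg_left (mul_le_mul_of_nonneg_left (by linarith) (hF x).le) (hρ x)
      _ = _ := by ring
  have hT : 0 ≤ mean ρ (fun x => F x * testSq Φ x) := sum_nonneg fun x _ =>
    mul_nonneg (hρ x) (mul_nonneg (hF x).le (add_nonneg (sum_nonneg fun _ _ => sq_nonneg _)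
      (sum_nonneg fun _ _ => sum_nonneg fun _ _ => sq_nonneg _)))
  have hD : 0 ≤ dirichlet ρ f := by
    rw [← hpD]
    exact sum_nonneg fun i _ => sum_nonneg fun x _ =>
      mul_nonneg (hρ x) (mul_nonneg (hv0 _ _) (sq_nonneg _))
  refine abs_le_of_sq_le_sq ?_ (by positivity)
  calc (∑ i, mean ρ (a i)) ^ 2 ≤ (∑ i, mean ρ (p i)) * ∑ i, mean ρ (q i) := hcs
    _ ≤ dirichlet ρ f * (64 * mean ρ (fun x => F x * testSq Φ x)) := by
        rw [hpD]; exact mul_le_mul_of_nonneg_left hq_le hD
    _ = _ := by rw [mul_pow, mul_pow, sq_sqrt hD, sq_sqrt hT]; ring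

end Vale.Agent.P150.Beta1.Rule
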