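import Vale.Agent.P150.Beta1.Rule.Smooth
import Vale.Agent.P150.Beta1.Rule.Tests

/-!
# The rule and the scalar identity

`E d_k·Ψ = E tr (L_k ∇Ψ)` up to the square root of the Dirichlet form, for every field, tilt and
observable, by induction on `k`: the Stein identity between two consecutive fields expresses
`d_{k+1}` through `d_k` and `d_{k-1}`; the free algebra leaves only the top scalar, and the rule
itself, tested with the iterates, identifies that scalar with the drop of the squared norms.
-/

namespace Vale.Agent.P150.Beta1.Rule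

open Finset Function Real Vale.Agent.P150.Beta1.Algebra

/-- The rule at one index. -/
def RuleAt (β : ℝ) (k : ℕ) : Prop :=
  ∃ m : ℕ, ∀ C, ∃ C', ∀ (n : ℕ) (J : Fin n → Fin n → ℝ) (y : Fin n → ℝ)
      (F : (Fin n → Bool) → ℝ) (Ψ : (Fin n → Bool) → Fin n → ℝ),
    GoodWords β m C J → (∀ x, 0 < F x) →
      |tmean (gibbs J y) F (fun x => ∑ i, ampD β J y (spins x) k i * Ψ x i)
        - tmean (gibbs J y) F (fun x => tracePair (ampL β J y (spins x) k) Ψ x)|
      ≤ C' * √(tdir (gibbs J y) F + 1) * √(tmean (gibbs J y) F (testSq Ψ) + 1)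

/-- The scalar identity at one index. -/
def ScalarAt (β : ℝ) (k : ℕ) : Prop :=
  ∃ m : ℕ, ∀ C, ∃ C', ∀ (n : ℕ) (J : Fin n → Fin n → ℝ) (y : Fin n → ℝ)
      (F : (Fin n → Bool) → ℝ),
    GoodWords β m C J → (∀ x, 0 < F x) →
      n * tmean (gibbs J y) F (fun x =>
          (ampT β J y (spins x) k
            - (qav (ampA β J y (spins x) k) - qav (ampA β J y (spins x) (k + 1)))) ^ 2)
      ≤ C' * (tdir (gibbs J y) F + 1)

variable {β C : ℝ}

lemma tdir_nonneg {n m : ℕ} {J : Fin n → Fin n → ℝ} (hG : GoodWords β m C J) (y : Fin n → ℝ)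
    {F : (Fin n → Bool) → ℝ} (hF : ∀ x, 0 < F x) : 0 ≤ tdir (gibbs J y) F := by
  refine div_nonneg ?_ (meanF_pos (fun x => gibbs_pos x) hF).le
  rw [dirichlet_eq hG.1 hG.2.1]
  exact sum_nonneg fun i _ => sum_nonneg fun x _ => mul_nonneg (gibbs_pos x).le (sq_nonneg _)

/-- The rule for the first increment is integration by parts. -/
theorem rule_zero (β : ℝ) : RuleAt β 0 := by
  refine ⟨0, fun C => ⟨8, fun n J y F Ψ hG hF => ?_⟩⟩
  have hρ : ∀ x, 0 < gibbs J y x := fun x => gibbs_pos x
  have h := ibp_bound (h := y) hG.1 hG.2.1 F hF Ψ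
  have hd : ∀ x, (∑ i, ampD β J y (spins x) 0 i * Ψ x i)
      - tracePair (ampL β J y (spins x) 0) Ψ x
      = ∑ i, ((spin (x i) - localMean J y i x) * Ψ x i
        - localVar J y i x * deriv2 i (fun z => Ψ z i) x) := fun x => by
    rw [sum_sub_distrib]
    congr 1
    simp only [tracePair, ampL, Matrix.diagonal_apply, ite_mul, zero_mul, sum_ite_eq', mem_univ,
      if_true]
    rfl
  rw [← tmean_sub]
  simp only [hd]
  set M := mean (gibbs J y) F with hMdef
  have hM : 0 < M := meanF_pos hρ hF
  rw [tmean, abs_div, abs_of_pos hM, div_le_iff₀ hM]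
  refine h.trans ?_
  set D := dirichlet (gibbs J y) fun x => √(F x)
  set T := mean (gibbs J y) fun x => F x * testSq Ψ x
  have hD : 0 ≤ D := by
    simp only [D, dirichlet_eq hG.1 hG.2.1]
    exact sum_nonneg fun i _ => sum_nonneg fun x _ => mul_nonneg (hρ x).le (sq_nonneg _)
  have hT : 0 ≤ T := sum_nonneg fun x _ =>
    mul_nonneg (hρ x).le (mul_nonneg (hF x).le (testSq_nonneg _ _))
  have e1 : √D = √M * √(tdir (gibbs J y) F) := by
    rw [← Real.sqrt_mul hM.le, tdir, mul_div_cancel₀ _ hM.ne']
  have e2 : √T = √M * √(tmean (gibbs J y) F (testSq Ψ)) := by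
    rw [← Real.sqrt_mul hM.le, tmean, mul_div_cancel₀ _ hM.ne']
  have h1 : √(tdir (gibbs J y) F) ≤ √(tdir (gibbs J y) F + 1) := Real.sqrt_le_sqrt (by linarith)
  have h2 : √(tmean (gibbs J y) F (testSq Ψ)) ≤ √(tmean (gibbs J y) F (testSq Ψ) + 1) :=
    Real.sqrt_le_sqrt (by linarith)
  rw [e1, e2]
  calc 8 * (√M * √(tdir (gibbs J y) F)) * (√M * √(tmean (gibbs J y) F (testSq Ψ)))
      = 8 * √(tdir (gibbs J y) F) * √(tmean (gibbs J y) F (testSq Ψ)) * (√M * √M) := by ring
    _ ≤ 8 * √(tdir (gibbs J y) F + 1) * √(tmean (gibbs J y) F (testSq Ψ) + 1) * (√M * √M) :=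
        mul_le_mul_of_nonneg_right (mul_le_mul (mul_le_mul_of_nonneg_left h1 (by norm_num)) h2
          (Real.sqrt_nonneg _) (by positivity)) (by positivity)
    _ = _ := by rw [Real.mul_self_sqrt hM.le]

/-- Pairing of `L_k` with the sum of the two iterates: the top scalar. -/
lemma exists_trace_iterates (β C : ℝ) (k : ℕ) : ∃ K, 0 ≤ K ∧ ∀ (n : ℕ) (J : Fin n → Fin n → ℝ)
    (y : Fin n → ℝ) (x : Fin n → Bool), 1 ≤ n → GoodWords β (2 * k + 4) C J →
      testSq (fun z i => ampA β J y (spins z) k i + ampA β J y (spins z) (k + 1) i) x ≤ K * n ∧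
      |tracePair (ampL β J y (spins x) k)
          (fun z i => ampA β J y (spins z) k i + ampA β J y (spins z) (k + 1) i) x
        - n * ampT β J y (spins x) k| ≤ K * √n := by
  obtain ⟨R, hR0, hR⟩ := exists_zgrad β C k
  obtain ⟨R', hR'0, hR'⟩ := exists_zgrad β C (k - 1)
  set KL : ℝ := max C 1 ^ k * lSize β k ^ 2
  set SX : ℝ := (1 + β ^ 2) ^ k * lSize β k
  set A0 : ℝ := max 1 (aAct β C (k - 1) R')
  set K : ℝ := 2 * (2 + A0 + aAct β C k R) + (√(KL * (288 * zQuart β C k R + 2 * R))
    + 2 * √(C * SX ^ 2) + √(KL * (288 * zQuart β C (k - 1) R' + 2 * R')))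
  refine ⟨max K 0, le_max_right _ _, fun n J y x hn hG => ?_⟩
  have : Nonempty (Fin n) := Fin.pos_iff_nonempty.1 hn
  have hn1 : (1 : ℝ) ≤ n := by exact_mod_cast hn
  have hz : ZGrad β J y x k R := hR _ _ J y x (by omega) hG
  have hz' : ZGrad β J y x (k - 1) R' := hR' _ _ J y x (by omega) hG
  have hb : ∀ j, ∑ i, ampA β J y (spins x) j i ^ 2 ≤ n := fun j =>
    le_of_le_of_eq (sum_le_sum fun i _ =>
      (sq_le_one_iff_abs_le_one _).2 (abs_ampA_le β J y x j i)) (by simp)
  set a := fun z => ampA β J y (spins z) k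
  set b := fun z => ampA β J y (spins z) (k + 1)
  have hactb : Act (aAct β C k R) (jac b x) := hz.actA hG (by omega)
  have hacta : Act A0 (jac a x) := by
    rcases Nat.eq_zero_or_pos k with rfl | hk
    · rw [show jac a x = 1 from jac_spins x]
      refine ⟨fun v => ?_, fun v => ?_⟩ <;>
        simp only [Matrix.one_mulVec, Matrix.transpose_one] <;>
        exact le_mul_of_one_le_left (sum_nonneg fun _ _ => sq_nonneg _) (le_max_left _ _)
    · obtain ⟨j, rfl⟩ : ∃ j, k = j + 1 := ⟨k - 1, by omega⟩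
      have h := hz'.actA hG (k := j) (by omega)
      exact ⟨fun v => (h.1 v).trans (mul_le_mul_of_nonneg_right (le_max_right _ _)
          (sum_nonneg fun _ _ => sq_nonneg _)),
        fun v => (h.2 v).trans (mul_le_mul_of_nonneg_right (le_max_right _ _)
          (sum_nonneg fun _ _ => sq_nonneg _))⟩
  refine ⟨?_, ?_⟩
  · refine (testSq_add_le a b x).trans ((le_of_eq_of_le rfl ?_).trans
      (mul_le_mul_of_nonneg_right (le_max_left K 0) (Nat.cast_nonneg _)))
    have ha := hacta.frob_le
    have hb' := hactb.frob_le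
    rw [Fintype.card_fin] at ha hb'
    rw [testSq_eq, testSq_eq]
    have := hb k
    have := hb (k + 1)
    have hS : 0 ≤ √(KL * (288 * zQuart β C k R + 2 * R)) + 2 * √(C * SX ^ 2)
        + √(KL * (288 * zQuart β C (k - 1) R' + 2 * R')) := by positivity
    have := mul_nonneg hS (Nat.cast_nonneg (α := ℝ) n)
    simp only [K, a, b] at *
    linarith
  · set L := (ampCoef β J y (spins x)).L k with hLdef
    have hLd : L.deg ≤ k := Coef.deg_L _ k
    have hLs : L.size ≤ lSize β k := size_ampL β J y x k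
    have hLA : Act KL (L.mat J) := expr_act hG L hLd hLs
    have hLm : L.mat J = ampL β J y (spins x) k := (ampL_eq β J y (spins x) k).symm
    have hKL : 0 ≤ KL := by simp only [KL]; positivity
    have word : ∀ (j : ℕ) (R0 : ℝ), j ≤ k → ZGrad β J y x j R0 →
        |tracePair (L.mat J) (fun z => ampA β J y (spins z) (j + 1)) x - ∑ i,
          (Expr.mul (.mul (.diag (ampU β J y (spins x) (j + 1))) (gradE β J y (spins x) j))
            L).free β i|
        ≤ (√(KL * (288 * zQuart β C j R0 + 2 * R0)) + √(C * SX ^ 2)) * √n := by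
      intro j R0 hj hzj
      set U := ampU β J y (spins x) (j + 1)
      set P := gradE β J y (spins x) j
      set X := Expr.mul (.mul (.diag U) P) L
      have hE1 := abs_sum_le_sqrt (u := fun _ : Fin n => (1 : ℝ)) ((diag_mul_sq_le hLA
        (jac (fun z => ampA β J y (spins z) (j + 1)) x - Matrix.diagonal U * P.mat J)).trans
        (mul_le_mul_of_nonneg_left (hzj.gradA hG (by omega)) hKL))
      have hE2 := abs_weighted_diag_le hG X
        (by
          have hP : P.deg ≤ j + 1 := deg_gradE β J y (spins x) j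
          simp only [X, Expr.deg]; omega)
        (S := SX) (by
          simp only [X, Expr.size]
          refine mul_le_mul ((mul_le_of_le_one_left P.size_nonneg
            (norm_ampU_le β J y (spins x) (abs_spins_le x) _)).trans
            ((size_gradE β J y (spins x) (abs_spins_le x) j).trans ?_)) hLs L.size_nonneg
            (by positivity)
          exact pow_le_pow_right₀ (le_add_of_nonneg_right (sq_nonneg β)) hj) (fun _ => 1)
      simp only [one_mul, one_pow, sum_const, card_univ, Fintype.card_fin, nsmul_one] at hE1 hE2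
      have hsplit : tracePair (L.mat J) (fun z => ampA β J y (spins z) (j + 1)) x
          = (∑ i, ((jac (fun z => ampA β J y (spins z) (j + 1)) x
              - Matrix.diagonal U * P.mat J) * L.mat J) i i) + ∑ i, X.mat J i i := by
        rw [tracePair_eq_trace, ← sum_add_distrib]
        refine sum_congr rfl fun i _ => ?_
        simp only [X, Expr.mat, Matrix.sub_mul, Matrix.sub_apply, Matrix.mul_assoc]
        ring
      rw [hsplit, add_mul, abs_le]
      have := abs_le.1 hE1
      have := abs_le.1 hE2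
      constructor <;> linarith
    have hb2 := word k R le_rfl hz
    have hz0 : ∀ i, (Expr.mul (.mul (.diag (ampU β J y (spins x) (k + 1)))
        (gradE β J y (spins x) k)) L).free β i = 0 := fun i => by
      have h := amp_free_later_L β J y (spins x) (le_refl k) i
      simp only [Expr.free, Expr.op, LinearMap.comp_apply, topMul_cons] at h ⊢
      rw [← hLdef] at h
      rw [h, mul_zero]
    simp only [hz0, sum_const_zero, sub_zero] at hb2
    have ha2 : |tracePair (L.mat J) a x - n * ampT β J y (spins x) k|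
        ≤ (√(KL * (288 * zQuart β C (k - 1) R' + 2 * R')) + √(C * SX ^ 2)) * √n := by
      rcases Nat.eq_zero_or_pos k with rfl | hk
      · have e : tracePair (L.mat J) a x = n * ampT β J y (spins x) 0 := by
          rw [tracePair_eq_trace, show jac a x = 1 from jac_spins x, Matrix.one_mul, hLm]
          simp only [ampL, Matrix.diagonal_apply_eq, ampT, avg, Fintype.card_fin]
          rw [mul_div_cancel₀ _ (by positivity : (n : ℝ) ≠ 0)]
        rw [e, sub_self, abs_zero]
        positivity
      · obtain ⟨j, rfl⟩ : ∃ j, k = j + 1 := ⟨k - 1, by omega⟩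
        have h := word j R' (Nat.le_succ j) hz'
        have hav := amp_avg_grad_L β J y (spins x) j
        rw [avg, Fintype.card_fin, div_eq_iff (by positivity : (n : ℝ) ≠ 0)] at hav
        rw [hav, mul_comm] at h
        exact h
    rw [← hLm, tracePair_add_right]
    refine le_trans ?_ (mul_le_mul_of_nonneg_right (le_max_left K 0) (Real.sqrt_nonneg _))
    have hA0 : 0 ≤ A0 := zero_le_one.trans (le_max_left _ _)
    have haK : 0 ≤ aAct β C k R :=
      (sum_nonneg fun _ _ => sq_nonneg _).trans (hactb.row_le ⟨0, hn⟩)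
    have := mul_nonneg (show 0 ≤ 2 * (2 + A0 + aAct β C k R) by positivity) (Real.sqrt_nonneg n)
    have := abs_le.1 ha2
    have := abs_le.1 hb2
    simp only [K, add_mul]
    rw [abs_le]
    constructor <;> linarith

/-- The rule identifies the top scalar. -/
theorem scalar_of_rule {k : ℕ} (hr : RuleAt β k) : ScalarAt β k := by
  obtain ⟨m, hm⟩ := hr
  refine ⟨max m (2 * k + 4), fun C => ?_⟩
  obtain ⟨C0, hC0⟩ := hm C
  obtain ⟨K, hK0, hK⟩ := exists_trace_iterates β C k
  obtain ⟨St, hSt0, hSt⟩ := exists_tgrad β C k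
  obtain ⟨Sd, hSd0, hSd⟩ := exists_dgrad β C k
  set Se : ℝ := 2 * (St + Sd)
  set KL : ℝ := max C 1 ^ k * lSize β k ^ 2
  set c0 : ℝ := 3 * √(Se * KL * K)
  set T1 : ℝ := (4 + 2 * K + 8 * Se)
  set a0 : ℝ := |C0| * √T1 + K
  refine ⟨4 * a0 ^ 2 + 2 * c0 + 2, fun n J y F hG hF => ?_⟩
  have hρ : ∀ x, 0 < gibbs J y x := fun x => gibbs_pos x
  have hD : 0 ≤ tdir (gibbs J y) F := tdir_nonneg hG y hF
  rcases Nat.eq_zero_or_pos n with rfl | hn
  · simp only [CharP.cast_eq_zero, zero_mul]
    positivity
  have : Nonempty (Fin n) := Fin.pos_iff_nonempty.1 hn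
  have hn1 : (1 : ℝ) ≤ n := by exact_mod_cast hn
  have hGm := goodWords_mono hG (le_max_left m (2 * k + 4))
  have hGk : GoodWords β (2 * k + 4) C J := goodWords_mono hG (le_max_right _ _)
  set e := fun z => ampT β J y (spins z) k
    - (qav (ampA β J y (spins z) k) - qav (ampA β J y (spins z) (k + 1)))
  set u := fun z i => ampA β J y (spins z) k i + ampA β J y (spins z) (k + 1) i
  set Ψ := fun z i => e z * u z i
  have hSe : ∀ x, scGrad e x ≤ Se := fun x => by
    have h1 := (hSt _ _ J y x (by omega) hGk).2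
    have h2 := (hSd _ _ J y x (by omega) hGk).2.1
    have h := scGrad_add_le (fun z => ampT β J y (spins z) k)
      (fun z => qav (ampA β J y (spins z) k) - qav (ampA β J y (spins z) (k + 1))) x 1 (-1)
    have he : e = fun z => 1 * ampT β J y (spins z) k
        + -1 * (qav (ampA β J y (spins z) k) - qav (ampA β J y (spins z) (k + 1))) := by
      funext z; simp only [e]; ring
    rw [he]
    simp only [neg_sq, one_pow, one_mul] at h
    simp only [Se, one_mul]
    linarith
  have hu2 : ∀ z i, |u z i| ≤ 2 := fun z i => by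
    refine (abs_add_le _ _).trans ?_
    linarith [abs_ampA_le β J y z k i, abs_ampA_le β J y z (k + 1) i]
  have hu : ∀ x, testSq u x ≤ K * n ∧
      |tracePair (ampL β J y (spins x) k) u x - n * ampT β J y (spins x) k| ≤ K * √n :=
    fun x => hK n J y x hn hGk
  have hKL0 : 0 ≤ KL := by simp only [KL]; positivity
  have hT : ∀ x, testSq Ψ x ≤ T1 * (n * e x ^ 2 + 1) := fun x => by
    have h1 : ∑ i, Ψ x i ^ 2 ≤ 4 * n * e x ^ 2 := by
      have := sum_le_sum (s := (univ : Finset (Fin n))) fun i _ =>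
        mul_le_mul_of_nonneg_left
          (sq_le_sq' (abs_le.1 (hu2 x i)).1 (abs_le.1 (hu2 x i)).2) (sq_nonneg (e x))
      simp only [Ψ, mul_pow]
      refine this.trans (le_of_eq ?_)
      simp
      ring
    have hj : ∀ i j, jac Ψ x i j ^ 2
        ≤ 2 * e x ^ 2 * jac u x i j ^ 2 + 8 * deriv2 j e x ^ 2 := fun i j => by
      have h2 : deriv2 j (fun z => e z * u z i) x
          = deriv2 j (fun z => u z i) x * e x + u (update x j (!x j)) i * deriv2 j e x := by
        rw [← deriv2_mul_flip]
        exact congrArg (deriv2 j · x) (funext fun z => mul_comm _ _)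
      simp only [jac, Matrix.of_apply, Ψ, h2]
      refine add_sq_le.trans ?_
      have := mul_le_mul_of_nonneg_right
        (sq_le_sq' (abs_le.1 (hu2 (update x j (!x j)) i)).1 (abs_le.1 (hu2 (update x j (!x j)) i)).2)
        (sq_nonneg (deriv2 j e x))
      simp only [mul_pow]
      linarith
    have h3 : frob (jac Ψ x) ≤ 2 * e x ^ 2 * (K * n) + 8 * Se := by
      refine (sum_le_sum fun i _ => sum_le_sum fun j _ => hj i j).trans ?_
      simp only [sum_add_distrib, ← mul_sum]
      have hfu : frob (jac u x) ≤ K * n :=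
        le_trans (le_add_of_nonneg_left (sum_nonneg fun _ _ => sq_nonneg _)) (hu x).1
      have hS := hSe x
      simp only [scGrad, Fintype.card_fin] at hS
      simp only [sum_const, card_univ, Fintype.card_fin, nsmul_eq_mul]
      have := mul_le_mul_of_nonneg_left hfu (show 0 ≤ 2 * e x ^ 2 by positivity)
      simp only [frob] at this
      linarith
    have hne : 0 ≤ n * e x ^ 2 := by positivity
    have hSe0 : 0 ≤ Se := (scGrad_nonneg _ _).trans (hSe x)
    rw [testSq_eq]
    simp only [T1]
    nlinarith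
  have hs : ∀ x, |tracePair (ampL β J y (spins x) k) Ψ x - e x * (n * ampT β J y (spins x) k)|
      ≤ c0 + K * (√n * |e x|) := fun x => by
    have hL : Act KL (ampL β J y (spins x) k) := by
      rw [ampL_eq]
      exact expr_act hGk _ (Coef.deg_L _ k) (size_ampL β J y x k)
    have h1 := tracePair_scalar hL e u x
    rw [Fintype.card_fin] at h1
    have h2 : √(scGrad e x * KL * testSq u x / n) ≤ √(Se * KL * K) := by
      refine Real.sqrt_le_sqrt ((div_le_iff₀ (by linarith)).2 ?_)
      calc scGrad e x * KL * testSq u x ≤ Se * KL * (K * n) :=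
            mul_le_mul (mul_le_mul_of_nonneg_right (hSe x) hKL0) (hu x).1 (testSq_nonneg _ _)
              (mul_nonneg ((scGrad_nonneg _ _).trans (hSe x)) hKL0)
        _ = Se * KL * K * n := by ring
    have h3 := mul_le_mul_of_nonneg_left (hu x).2 (abs_nonneg (e x))
    rw [← abs_mul, mul_sub] at h3
    have := abs_le.1 (h1.trans (mul_le_mul_of_nonneg_left h2 (by norm_num)))
    have := abs_le.1 h3
    simp only [c0]
    rw [abs_le]
    constructor <;> linarith
  have hq : ∀ x, ∑ i, ampD β J y (spins x) k i * Ψ x i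
      = e x * (n * (qav (ampA β J y (spins x) k) - qav (ampA β J y (spins x) (k + 1)))) :=
    fun x => by
    have h : ∀ i, ampD β J y (spins x) k i * Ψ x i
        = e x * (ampA β J y (spins x) k i ^ 2 - ampA β J y (spins x) (k + 1) i ^ 2) := fun i => by
      simp only [ampD, Ψ, u]; ring
    simp only [h, ← mul_sum, sum_sub_distrib, qav, avg, Fintype.card_fin]
    field_simp
  have hrule := hC0 n J y F Ψ hGm hF
  set X := (n : ℝ) * tmean (gibbs J y) F (fun x => e x ^ 2) with hX
  have hX0 : 0 ≤ X := mul_nonneg (Nat.cast_nonneg _) (tmean_nonneg hρ hF fun x => sq_nonneg _)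
  have hEe : X = tmean (gibbs J y) F (fun x => n * e x ^ 2) := (tmean_const_mul _ _).symm
  have he1 : tmean (gibbs J y) F (fun x => √n * |e x|) ≤ √(X + 1) := by
    have h := tmean_sqrt_le hρ hF (φ := fun x => n * e x ^ 2) (fun x => by positivity)
    rw [← hEe] at h
    have e2 : ∀ x, √n * |e x| = √(n * e x ^ 2) := fun x => by
      rw [Real.sqrt_mul (Nat.cast_nonneg n), Real.sqrt_sq_eq_abs]
    simp only [e2]
    exact h.trans (Real.sqrt_le_sqrt (by linarith))
  have hTm : tmean (gibbs J y) F (testSq Ψ) + 1 ≤ T1 * (X + 1) + 1 := by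
    have := tmean_mono hρ hF hT
    rw [tmean_const_mul, tmean_add, tmean_const hρ hF, ← hEe] at this
    linarith
  set D := tdir (gibbs J y) F
  have hdiff : X ≤ |C0| * √(D + 1) * √(T1 * (X + 1) + 1) + (c0 + K * √(X + 1)) := by
    have hpt : ∀ x, n * e x ^ 2 ≤ (tracePair (ampL β J y (spins x) k) Ψ x
        - ∑ i, ampD β J y (spins x) k i * Ψ x i) + (c0 + K * (√n * |e x|)) := fun x => by
      have := abs_le.1 (hs x)
      rw [hq x]
      simp only [e] at this ⊢
      nlinarith
    have h := tmean_mono hρ hF hpt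
    rw [← hEe, tmean_add, tmean_sub, tmean_add, tmean_const hρ hF, tmean_const_mul] at h
    have h1 := neg_le_of_abs_le hrule
    have h2 : C0 * √(D + 1) * √(tmean (gibbs J y) F (testSq Ψ) + 1)
        ≤ |C0| * √(D + 1) * √(T1 * (X + 1) + 1) :=
      mul_le_mul (mul_le_mul_of_nonneg_right (le_abs_self _) (Real.sqrt_nonneg _))
        (Real.sqrt_le_sqrt hTm) (Real.sqrt_nonneg _) (by positivity)
    have h3 := mul_le_mul_of_nonneg_left he1 hK0
    linarith
  have hT1 : 1 ≤ T1 := by
    have hSe0 : 0 ≤ Se := by simp only [Se]; positivity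
    simp only [T1]
    linarith
  have hsd : 1 ≤ √(D + 1) := Real.one_le_sqrt.2 (by linarith)
  have hsq : √(T1 * (X + 1) + 1) ≤ 2 * √T1 * √(X + 1) := by
    rw [show (2 : ℝ) * √T1 * √(X + 1) = √(4 * (T1 * (X + 1))) by
      rw [Real.sqrt_mul (by norm_num : (0 : ℝ) ≤ 4), Real.sqrt_mul (by linarith),
        show (4 : ℝ) = 2 ^ 2 by norm_num, Real.sqrt_sq (by norm_num : (0 : ℝ) ≤ 2)]
      ring]
    exact Real.sqrt_le_sqrt (by nlinarith)
  have hY : X + 1 ≤ 2 * (a0 * √(D + 1)) * √(X + 1) + (c0 + 1) := by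
    have h1 := mul_le_mul_of_nonneg_left hsq (show 0 ≤ |C0| * √(D + 1) by positivity)
    have h2 : K * √(X + 1) ≤ 2 * K * √(D + 1) * √(X + 1) :=
      mul_le_mul_of_nonneg_right (by nlinarith) (Real.sqrt_nonneg _)
    simp only [a0]
    linarith
  have hsY := Real.mul_self_sqrt (show (0 : ℝ) ≤ X + 1 by linarith)
  have hsD2 := Real.mul_self_sqrt (show (0 : ℝ) ≤ D + 1 by linarith)
  have hc : 0 ≤ c0 := by simp only [c0]; positivity
  have hYb : X + 1 ≤ 4 * (a0 * √(D + 1)) ^ 2 + 2 * (c0 + 1) := by
    nlinarith [sq_nonneg (√(X + 1) - 2 * (a0 * √(D + 1)))]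
  rw [mul_pow, sq (√(D + 1)), hsD2] at hYb
  show X ≤ _
  nlinarith [mul_nonneg hc hD]

end Vale.Agent.P150.Beta1.Rule
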