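import Vale.Agent.P150.Beta1.Rule.Fields

/-!
# Normalised expectations, test norms and trace pairings

The pointwise estimates behind the rule: products with bounded coefficients keep the test norm,
scalars leave a trace pairing up to their gradient, and the free value replaces the diagonal of
an expression.
-/

namespace Vale.Agent.P150.Beta1.Rule

open Finset Function Real Vale.Agent.P150.Beta1.Algebra

variable {ι : Type*} [Fintype ι]

/-! ### The normalised expectation -/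

section tmean

variable {ρ F : (ι → Bool) → ℝ} [DecidableEq ι]

lemma tmean_add (φ ψ : (ι → Bool) → ℝ) :
    tmean ρ F (fun x => φ x + ψ x) = tmean ρ F φ + tmean ρ F ψ := by
  simp only [tmean, mean, mul_add, sum_add_distrib, add_div]

lemma tmean_sub (φ ψ : (ι → Bool) → ℝ) :
    tmean ρ F (fun x => φ x - ψ x) = tmean ρ F φ - tmean ρ F ψ := by
  simp only [tmean, mean, mul_sub, sum_sub_distrib, sub_div]

lemma tmean_const_mul (c : ℝ) (φ : (ι → Bool) → ℝ) :
    tmean ρ F (fun x => c * φ x) = c * tmean ρ F φ := by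
  simp only [tmean, mean, ← mul_div_assoc, mul_sum]
  refine congrArg (· / _) (sum_congr rfl fun x _ => ?_)
  ring

variable (hρ : ∀ x, 0 < ρ x) (hF : ∀ x, 0 < F x)
include hρ hF

lemma meanF_pos : 0 < mean ρ F :=
  sum_pos (fun x _ => mul_pos (hρ x) (hF x)) univ_nonempty

lemma tmean_const (c : ℝ) : tmean ρ F (fun _ => c) = c := by
  have h := meanF_pos hρ hF
  simp only [tmean, mean, ← mul_assoc, ← sum_mul]
  rw [div_eq_iff (by simpa [mean] using h.ne')]
  simp [mul_comm]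

lemma tmean_mono {φ ψ : (ι → Bool) → ℝ} (h : ∀ x, φ x ≤ ψ x) : tmean ρ F φ ≤ tmean ρ F ψ :=
  div_le_div_of_nonneg_right (sum_le_sum fun x _ =>
    mul_le_mul_of_nonneg_left (mul_le_mul_of_nonneg_left (h x) (hF x).le) (hρ x).le)
    (meanF_pos hρ hF).le

lemma tmean_nonneg {φ : (ι → Bool) → ℝ} (h : ∀ x, 0 ≤ φ x) : 0 ≤ tmean ρ F φ := by
  simpa [tmean_const hρ hF] using tmean_mono (φ := fun _ => 0) hρ hF h

lemma abs_tmean_le (φ : (ι → Bool) → ℝ) : |tmean ρ F φ| ≤ tmean ρ F fun x => |φ x| := by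
  rw [abs_le]
  constructor
  · have h := tmean_mono hρ hF (φ := fun x => -1 * φ x) (ψ := fun x => |φ x|)
      fun x => by simp [neg_le_abs]
    rw [tmean_const_mul] at h
    linarith
  · exact tmean_mono hρ hF fun x => le_abs_self _

lemma tmean_mul_sq_le (φ ψ : (ι → Bool) → ℝ) :
    tmean ρ F (fun x => φ x * ψ x) ^ 2
      ≤ tmean ρ F (fun x => φ x ^ 2) * tmean ρ F (fun x => ψ x ^ 2) := by
  have h := meanF_pos hρ hF
  simp only [tmean]
  rw [div_pow, div_mul_div_comm, ← sq]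
  refine div_le_div_of_nonneg_right ?_ (sq_nonneg _)
  refine sum_sq_le_sum_mul_sum_of_sq_le_mul univ (fun x _ => ?_) (fun x _ => ?_) fun x _ => ?_
  · exact mul_nonneg (hρ x).le (mul_nonneg (hF x).le (sq_nonneg _))
  · exact mul_nonneg (hρ x).le (mul_nonneg (hF x).le (sq_nonneg _))
  · exact le_of_eq (by ring)

lemma abs_tmean_mul_le (φ ψ : (ι → Bool) → ℝ) :
    |tmean ρ F (fun x => φ x * ψ x)|
      ≤ √(tmean ρ F fun x => φ x ^ 2) * √(tmean ρ F fun x => ψ x ^ 2) := by
  rw [← Real.sqrt_mul (tmean_nonneg hρ hF fun x => sq_nonneg _), ← Real.sqrt_sq_eq_abs]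
  exact Real.sqrt_le_sqrt (tmean_mul_sq_le hρ hF φ ψ)

lemma tmean_sqrt_le {φ : (ι → Bool) → ℝ} (h : ∀ x, 0 ≤ φ x) :
    tmean ρ F (fun x => √(φ x)) ≤ √(tmean ρ F φ) := by
  have := abs_tmean_mul_le hρ hF (fun x => √(φ x)) (fun _ => 1)
  simp only [mul_one, one_pow, tmean_const hρ hF, Real.sqrt_one, fun x => sq_sqrt (h x)] at this
  exact (le_abs_self _).trans this

/-- A pointwise bound by the root of a nonnegative observable. -/
lemma abs_tmean_le_sqrt {φ q : (ι → Bool) → ℝ} {c : ℝ} (hq : ∀ x, 0 ≤ q x)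
    (h : ∀ x, |φ x| ≤ c * √(q x)) (hc : 0 ≤ c) :
    |tmean ρ F φ| ≤ c * √(tmean ρ F q + 1) := by
  refine (abs_tmean_le hρ hF φ).trans ((tmean_mono hρ hF h).trans ?_)
  rw [tmean_const_mul]
  exact mul_le_mul_of_nonneg_left
    ((tmean_sqrt_le hρ hF hq).trans (Real.sqrt_le_sqrt (by linarith))) hc

end tmean

variable [DecidableEq ι]

/-! ### Test norms -/

lemma testSq_nonneg (Ψ : (ι → Bool) → ι → ℝ) (x : ι → Bool) : 0 ≤ testSq Ψ x :=
  add_nonneg (sum_nonneg fun _ _ => sq_nonneg _)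
    (sum_nonneg fun _ _ => sum_nonneg fun _ _ => sq_nonneg _)

omit [Fintype ι] in
lemma deriv2_mul_flip (j : ι) (u v : (ι → Bool) → ℝ) (x : ι → Bool) :
    deriv2 j (fun z => u z * v z) x
      = deriv2 j u x * v x + u (update x j (!x j)) * deriv2 j v x := by
  have h := update_eq_self j x
  cases hb : x j <;> rw [hb] at h <;>
    simp only [deriv2, Bool.not_true, Bool.not_false, h] <;> ring

/-- Multiplication by a bounded field with bounded gradient rows. -/
lemma testSq_mul_le (u Ψ : (ι → Bool) → ι → ℝ) (x : ι → Bool) {G K : ℝ}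
    (hu : ∀ z i, |u z i| ≤ G) (hK : ∀ i, ∑ j, jac u x i j ^ 2 ≤ K) (hK0 : 0 ≤ K) :
    testSq (fun z i => u z i * Ψ z i) x ≤ (3 * G ^ 2 + 2 * K) * testSq Ψ x := by
  have hsq : ∀ z i, u z i ^ 2 ≤ G ^ 2 := fun z i => sq_le_sq' (abs_le.1 (hu z i)).1 (abs_le.1 (hu z i)).2
  have h1 : ∑ i, (u x i * Ψ x i) ^ 2 ≤ G ^ 2 * ∑ i, Ψ x i ^ 2 := by
    simp only [mul_pow, mul_sum]
    exact sum_le_sum fun i _ => mul_le_mul_of_nonneg_right (hsq x i) (sq_nonneg _)
  have h2 : frob (jac (fun z i => u z i * Ψ z i) x)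
      ≤ 2 * K * ∑ i, Ψ x i ^ 2 + 2 * G ^ 2 * frob (jac Ψ x) := by
    simp only [frob, mul_sum, ← sum_add_distrib]
    refine sum_le_sum fun i _ => ?_
    refine le_trans (sum_le_sum (g := fun j => 2 * Ψ x i ^ 2 * jac u x i j ^ 2
      + 2 * G ^ 2 * jac Ψ x i j ^ 2) fun j _ => ?_) ?_
    · show (deriv2 j (fun z => u z i * Ψ z i) x) ^ 2 ≤ _
      rw [deriv2_mul_flip]
      refine le_trans add_sq_le ?_
      have := mul_le_mul_of_nonneg_right (hsq (update x j (!x j)) i)
        (sq_nonneg (deriv2 j (fun z => Ψ z i) x))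
      simp only [jac, Matrix.of_apply, mul_pow]
      linarith
    · rw [sum_add_distrib, ← mul_sum, ← mul_sum]
      have := mul_le_mul_of_nonneg_left (hK i) (show 0 ≤ 2 * Ψ x i ^ 2 by positivity)
      simp only [jac, Matrix.of_apply] at this ⊢
      linarith [mul_sum (univ : Finset ι) (fun j => deriv2 j (fun z => Ψ z i) x ^ 2) (2 * G ^ 2)]
  have hf0 := frob_nonneg (jac Ψ x)
  have hp0 : 0 ≤ ∑ i, Ψ x i ^ 2 := sum_nonneg fun _ _ => sq_nonneg _
  rw [testSq_eq, testSq_eq]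
  nlinarith [mul_nonneg (sq_nonneg G) hp0, mul_nonneg (sq_nonneg G) hf0, mul_nonneg hK0 hf0]

lemma testSq_act_le {K : ℝ} {J : ι → ι → ℝ} (hJ : Act K (Matrix.of J))
    (Ψ : (ι → Bool) → ι → ℝ) (x : ι → Bool) :
    testSq (fun z i => act J (Ψ z) i) x ≤ K * testSq Ψ x := by
  rw [testSq_eq, testSq_eq, jac_act, mul_add]
  exact add_le_add (hJ.1 (Ψ x)) (hJ.frob_mul_le _)

lemma testSq_add_le (Φ Ψ : (ι → Bool) → ι → ℝ) (x : ι → Bool) :
    testSq (fun z i => Φ z i + Ψ z i) x ≤ 2 * (testSq Φ x + testSq Ψ x) := by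
  have e : jac (fun z i => Φ z i + Ψ z i) x = jac Φ x + jac Ψ x := by
    ext i j
    simp only [jac, Matrix.of_apply, Matrix.add_apply, deriv2]
    ring
  have h1 := sum_le_sum (s := (univ : Finset ι)) fun i _ => add_sq_le (a := Φ x i) (b := Ψ x i)
  rw [← mul_sum, sum_add_distrib] at h1
  have h2 := frob_add_le (jac Φ x) (jac Ψ x)
  rw [testSq_eq, testSq_eq, testSq_eq, e]
  linarith

/-! ### Trace pairings -/

lemma tracePair_eq_trace (L : Matrix ι ι ℝ) (Ψ : (ι → Bool) → ι → ℝ) (x : ι → Bool) :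
    tracePair L Ψ x = ∑ i, (jac Ψ x * L) i i := by
  rw [tracePair_eq]
  simp only [Matrix.mul_apply]
  exact sum_congr rfl fun i _ => sum_congr rfl fun j _ => mul_comm _ _

omit [DecidableEq ι] in
lemma trace_comm (A B : Matrix ι ι ℝ) : ∑ i, (A * B) i i = ∑ i, (B * A) i i := by
  simp only [Matrix.mul_apply]
  rw [sum_comm]
  exact sum_congr rfl fun i _ => sum_congr rfl fun j _ => mul_comm _ _

lemma tracePair_act (L : Matrix ι ι ℝ) (J : ι → ι → ℝ) (Ψ : (ι → Bool) → ι → ℝ) (x : ι → Bool) :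
    tracePair L (fun z i => act J (Ψ z) i) x = tracePair (L * Matrix.of J) Ψ x := by
  rw [tracePair_eq_trace, tracePair_eq_trace, jac_act, trace_comm, ← Matrix.mul_assoc, trace_comm]

lemma tracePair_add (L M : Matrix ι ι ℝ) (Ψ : (ι → Bool) → ι → ℝ) (x : ι → Bool) :
    tracePair (L + M) Ψ x = tracePair L Ψ x + tracePair M Ψ x := by
  simp only [tracePair_eq_trace, Matrix.mul_add, Matrix.add_apply, sum_add_distrib]

lemma tracePair_smul (c : ℝ) (L : Matrix ι ι ℝ) (Ψ : (ι → Bool) → ι → ℝ) (x : ι → Bool) :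
    tracePair (c • L) Ψ x = c * tracePair L Ψ x := by
  simp only [tracePair_eq_trace, Matrix.mul_smul, Matrix.smul_apply, smul_eq_mul, mul_sum]

lemma tracePair_add_right (L : Matrix ι ι ℝ) (Φ Ψ : (ι → Bool) → ι → ℝ) (x : ι → Bool) :
    tracePair L (fun z i => Φ z i + Ψ z i) x = tracePair L Φ x + tracePair L Ψ x := by
  simp only [tracePair, deriv2, ← sum_add_distrib]
  exact sum_congr rfl fun i _ => sum_congr rfl fun j _ => by ring

/-- A scalar factor leaves the pairing up to its gradient. -/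
lemma tracePair_scalar [Nonempty ι] {K : ℝ} {L : Matrix ι ι ℝ} (hL : Act K L)
    (s : (ι → Bool) → ℝ) (W : (ι → Bool) → ι → ℝ) (x : ι → Bool) :
    |tracePair L (fun z i => s z * W z i) x - s x * tracePair L W x|
      ≤ 3 * √(scGrad s x * K * testSq W x / Fintype.card ι) := by
  set n : ℝ := (Fintype.card ι : ℝ) with hn
  have hn0 : 0 < n := by rw [hn]; exact_mod_cast Fintype.card_pos
  set d := fun j => deriv2 j s x with hd
  set T := testSq W x
  have hK0 : 0 ≤ K := (sum_nonneg fun _ _ => sq_nonneg _).trans (hL.row_le (Classical.arbitrary ι))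
  have hd2 : ∑ j, d j ^ 2 = scGrad s x / n := by
    rw [scGrad, ← hn, mul_div_cancel_left₀ _ hn0.ne']
  have hD : ∀ i j, deriv2 j (fun z => s z * W z i) x
      = s x * jac W x i j + d j * (W x i - 2 * spin (x j) * jac W x i j) := fun i j => by
    have e1 := sub_flip j (fun z => W z i) x
    have e2 := deriv2_mul_flip j (fun z => W z i) s x
    have e3 : (fun z => s z * W z i) = fun z => W z i * s z := funext fun z => mul_comm _ _
    rw [e3, e2, eq_add_of_sub_eq e1]
    show deriv2 j (fun z => W z i) x * s x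
      + (-2 * spin (x j) * deriv2 j (fun z => W z i) x + W x i) * deriv2 j s x
      = s x * deriv2 j (fun z => W z i) x
        + deriv2 j s x * (W x i - 2 * spin (x j) * deriv2 j (fun z => W z i) x)
    ring
  set a := fun j => ∑ i, L j i * W x i
  set b := fun j => ∑ i, L j i * (spin (x j) * jac W x i j)
  have hsplit : tracePair L (fun z i => s z * W z i) x - s x * tracePair L W x
      = ∑ j, d j * (a j - 2 * b j) := by
    simp only [tracePair, hD, a, b, mul_sub, mul_sum, ← sum_sub_distrib]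
    rw [sum_comm]
    refine sum_congr rfl fun j _ => sum_congr rfl fun i _ => ?_
    simp only [jac, Matrix.of_apply]
    ring
  have ha : ∑ j, a j ^ 2 ≤ K * ∑ i, W x i ^ 2 := hL.1 (W x)
  have hb : ∑ j, b j ^ 2 ≤ K * frob (jac W x) := by
    have h1 : ∀ j, b j ^ 2 ≤ K * ∑ i, jac W x i j ^ 2 := fun j => by
      refine (sum_mul_sq_le_sq_mul_sq _ _ _).trans ?_
      refine mul_le_mul (hL.row_le j) (le_of_eq (sum_congr rfl fun i _ => ?_))
        (sum_nonneg fun _ _ => sq_nonneg _) hK0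
      rw [mul_pow, show spin (x j) ^ 2 = 1 from by
        rcases spin_cases (x j) with h | h <;> rw [h] <;> norm_num, one_mul]
    refine (sum_le_sum fun j _ => h1 j).trans (le_of_eq ?_)
    rw [← mul_sum, frob, sum_comm]
  have hab : ∑ j, (a j - 2 * b j) ^ 2 ≤ 9 * (K * T) := by
    have h1 : ∀ j, (a j - 2 * b j) ^ 2 ≤ 9 * a j ^ 2 + 9 * b j ^ 2 := fun j => by
      nlinarith [sq_nonneg (2 * a j + b j), sq_nonneg (a j), sq_nonneg (b j)]
    refine (sum_le_sum fun j _ => h1 j).trans ?_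
    rw [sum_add_distrib, ← mul_sum, ← mul_sum]
    simp only [T, testSq_eq, mul_add]
    linarith
  rw [hsplit, ← Real.sqrt_sq_eq_abs, show (3 : ℝ) = √9 by
    rw [show (9 : ℝ) = 3 ^ 2 by norm_num, Real.sqrt_sq (by norm_num : (0 : ℝ) ≤ 3)],
    ← Real.sqrt_mul (by norm_num : (0 : ℝ) ≤ 9)]
  refine Real.sqrt_le_sqrt ((sum_mul_sq_le_sq_mul_sq _ _ _).trans ?_)
  rw [hd2]
  refine (mul_le_mul_of_nonneg_left hab (div_nonneg (scGrad_nonneg _ _) hn0.le)).trans (le_of_eq ?_)
  ring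

omit [DecidableEq ι] in
/-- Diagonals of a product with a Frobenius small factor. -/
lemma diag_mul_sq_le [DecidableEq ι] {K : ℝ} {L : Matrix ι ι ℝ} (hL : Act K L) (R : Matrix ι ι ℝ) :
    ∑ i, (R * L) i i ^ 2 ≤ K * frob R := by
  simp only [frob, mul_sum, Matrix.mul_apply]
  refine sum_le_sum fun i _ => (sum_mul_sq_le_sq_mul_sq _ _ _).trans ?_
  rw [← mul_sum, mul_comm]
  exact mul_le_mul_of_nonneg_right (hL.col_le i) (sum_nonneg fun _ _ => sq_nonneg _)

omit [DecidableEq ι] in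
/-- Cauchy-Schwarz for a weighted sum. -/
lemma abs_sum_le_sqrt {u v : ι → ℝ} {A : ℝ} (hv : ∑ i, v i ^ 2 ≤ A) :
    |∑ i, u i * v i| ≤ √A * √(∑ i, u i ^ 2) := by
  rw [← Real.sqrt_mul ((sum_nonneg fun _ _ => sq_nonneg _).trans hv), ← Real.sqrt_sq_eq_abs]
  refine Real.sqrt_le_sqrt ((sum_mul_sq_le_sq_mul_sq _ _ _).trans ?_)
  rw [mul_comm A]
  exact mul_le_mul_of_nonneg_left hv (sum_nonneg fun _ _ => sq_nonneg _)

variable {β C : ℝ} {m : ℕ} {J : ι → ι → ℝ}

/-- The weighted diagonal of an expression is its free value. -/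
lemma abs_weighted_diag_le (h : GoodWords β m C J) (X : Expr ι) (hd : X.deg ≤ m) {S : ℝ}
    (hs : X.size ≤ S) (Ψ : ι → ℝ) :
    |(∑ i, Ψ i * X.mat J i i) - ∑ i, Ψ i * X.free β i| ≤ √(C * S ^ 2) * √(∑ i, Ψ i ^ 2) := by
  rw [← sum_sub_distrib]
  simp only [← mul_sub]
  refine abs_sum_le_sqrt ((X.diag_le h hd).trans ?_)
  exact mul_le_mul_of_nonneg_left (pow_le_pow_left₀ X.size_nonneg hs 2) (goodWords_nonneg h)

/-- Hadamard products with a gradient word are Frobenius bounded. -/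
lemma had_le (h : GoodWords β m C J) (A P : Expr ι) (hA : A.deg ≤ m) (hP : P.deg ≤ m)
    (h0 : ∀ i, P.free β i = 0) {S : ℝ} (hSA : A.size ≤ S) (hSP : P.size ≤ S) :
    ∑ i, ∑ j, A.mat J j i ^ 2 * P.mat J i j ^ 2
      ≤ (2 * C + C ^ 2) * S ^ 4 + max C 1 ^ m * S ^ 2 * (C * S ^ 2) := by
  have hC := goodWords_nonneg h
  have hkey : ∀ i j, A.mat J j i ^ 2 * P.mat J i j ^ 2 ≤ (if i = j then 0 else A.mat J j i ^ 4)
      + P.mat J i j ^ 4 + (if i = j then max C 1 ^ m * S ^ 2 * P.mat J i j ^ 2 else 0) := by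
    intro i j
    split_ifs with hij
    · have := mul_le_mul_of_nonneg_right ((expr_act h A hA hSA).entry_le j i)
        (sq_nonneg (P.mat J i j))
      have : 0 ≤ P.mat J i j ^ 4 := by positivity
      linarith
    · nlinarith [sq_nonneg (A.mat J j i ^ 2 - P.mat J i j ^ 2), sq_nonneg (A.mat J j i ^ 2),
        sq_nonneg (P.mat J i j ^ 2)]
  refine (sum_le_sum fun i _ => sum_le_sum fun j _ => hkey i j).trans ?_
  simp only [sum_add_distrib, sum_ite_eq, mem_univ, if_true]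
  have h4 : ∀ X : Expr ι, X.size ≤ S → X.size ^ 4 ≤ S ^ 4 := fun X hX =>
    pow_le_pow_left₀ X.size_nonneg hX 4
  have ha : ∑ i, ∑ j, (if i = j then 0 else A.mat J j i ^ 4) ≤ C * S ^ 4 := by
    rw [sum_comm]
    refine le_trans (le_of_eq (sum_congr rfl fun j _ => sum_congr rfl fun i _ => ?_))
      ((A.offdiag_le h hA).trans (mul_le_mul_of_nonneg_left (h4 A hSA) hC))
    simp only [eq_comm (a := i)]
  have hp := (expr_quart h P hP h0).trans
    (mul_le_mul_of_nonneg_left (h4 P hSP) (by positivity))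
  have hpd : ∑ i, max C 1 ^ m * S ^ 2 * P.mat J i i ^ 2 ≤ max C 1 ^ m * S ^ 2 * (C * S ^ 2) := by
    rw [← mul_sum]
    refine mul_le_mul_of_nonneg_left ?_ (by positivity)
    have := P.diag_le h hP
    simp only [h0, sub_zero] at this
    exact this.trans (mul_le_mul_of_nonneg_left (pow_le_pow_left₀ P.size_nonneg hSP 2) hC)
  simp only [quart] at hp
  linarith

end Vale.Agent.P150.Beta1.Rule
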