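import Vale.Agent.P150.Beta1.Rule.Pairing
import Vale.Agent.P150.Beta1.Rule.Size
import Vale.Agent.P150.Beta1.Stein.Log
import Vale.Agent.P150.Beta1.Rule.Ibp

/-!
# Gradients of the coefficients of the recursion

A smooth function of two consecutive fields and of the variance parameter has a gradient word with
two terms up to a bounded error; the scalars of the recursion have gradients of order `n⁻¹ᐟ²`.
-/

namespace Vale.Agent.P150.Beta1.Rule

open Finset Function Real Vale.Agent.P150.Beta1.Algebra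

/-- Derivative of `1 - tanh ²`. -/
noncomputable def uDeriv (t : ℝ) : ℝ := -(2 * tanh t * (1 - tanh t ^ 2))

lemma abs_uDeriv_le (t : ℝ) : |uDeriv t| ≤ 2 := by
  rw [uDeriv, abs_neg, abs_mul, abs_mul, abs_two, mul_assoc]
  exact mul_le_of_le_one_right two_pos.le
    (mul_le_one₀ (abs_tanh_le t) (abs_nonneg _) (abs_one_sub_tanh_sq t))

/-- First-order expansion of `1 - tanh ²`. -/
lemma u_taylor (a b : ℝ) :
    |(1 - tanh b ^ 2) - (1 - tanh a ^ 2) - uDeriv a * (b - a)| ≤ 6 * (b - a) ^ 2 := by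
  refine taylor_one (f := fun s => 1 - tanh s ^ 2) (f' := uDeriv) (fun t => ?_) (fun s t => ?_)
    (by norm_num) a b
  · have h := ((hasDerivAt_tanh' t).fun_pow 2).const_sub 1
    simpa [uDeriv] using h
  · have h1 := tanh_deriv_lip s t
    have h2 : |tanh s - tanh t| ≤ |s - t| := abs_tanh_sub_le s t
    rw [uDeriv, uDeriv, neg_sub_neg,
      show 2 * tanh t * (1 - tanh t ^ 2) - 2 * tanh s * (1 - tanh s ^ 2)
        = 2 * (tanh t - tanh s) * (1 - tanh t ^ 2)
          + 2 * tanh s * ((1 - tanh t ^ 2) - (1 - tanh s ^ 2)) by ring]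
    refine (abs_add_le _ _).trans ?_
    rw [abs_mul, abs_mul, abs_mul (2 * tanh s), abs_mul, abs_two, abs_sub_comm (tanh t),
      abs_sub_comm (1 - tanh t ^ 2)]
    have := mul_le_mul h2 (abs_one_sub_tanh_sq t) (abs_nonneg _) (abs_nonneg _)
    have := mul_le_mul (abs_tanh_le s) h1 (abs_nonneg _) zero_le_one
    linarith

/-- Constant bounding the Stein weight, its partials and its remainders for `|Δ| ≤ β²`. -/
noncomputable def gCst (β : ℝ) : ℝ := 400 * exp (β ^ 2 / 2)

lemma gCst_ge (β : ℝ) : 400 ≤ gCst β := by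
  rw [gCst]
  nlinarith [one_le_exp (div_nonneg (sq_nonneg β) (by norm_num : (0 : ℝ) ≤ 2))]

lemma stein_bounds {β Δ : ℝ} (hΔ : |Δ| ≤ β ^ 2) (a b : ℝ) :
    |steinG a b Δ| ≤ exp (β ^ 2 / 2) ∧ |steinG' a b Δ| ≤ 2 * exp (β ^ 2 / 2) ∧
      |steinGb a b Δ| ≤ 2 * exp (β ^ 2 / 2) ∧ |steinGd a b Δ| ≤ exp (β ^ 2 / 2) := by
  have hg : steinG a b Δ ≤ exp (β ^ 2 / 2) :=
    (steinG_le_exp a b Δ).trans (exp_le_exp.2 (by linarith))
  have h0 := steinG_pos a b Δ
  refine ⟨by rw [abs_of_pos h0]; exact hg, (abs_steinG'_le a b Δ).trans (by linarith),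
    (abs_steinGb_le a b Δ).trans (by linarith), ?_⟩
  rw [abs_of_nonneg (steinGd_nonneg a b Δ)]
  linarith [steinGd_le a b Δ]

/-- First-order expansion of `(1 - tanh ²) g`. -/
lemma ug_taylor {β : ℝ} (a b Δ u v w : ℝ) (hΔ : |Δ| ≤ β ^ 2) (hw : |Δ + w| ≤ β ^ 2) :
    |(1 - tanh (a + u) ^ 2) * steinG (a + u) (b + v) (Δ + w) - (1 - tanh a ^ 2) * steinG a b Δ
        - (uDeriv a * steinG a b Δ + (1 - tanh a ^ 2) * steinG' a b Δ) * u
        - (1 - tanh a ^ 2) * steinGb a b Δ * v - (1 - tanh a ^ 2) * steinGd a b Δ * w|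
      ≤ gCst β * (u ^ 2 + v ^ 2 + w ^ 2) := by
  set E := exp (β ^ 2 / 2) with hE
  set p := 1 - tanh a ^ 2
  set q := steinG a b Δ
  set dp := (1 - tanh (a + u) ^ 2) - p
  set dq := steinG (a + u) (b + v) (Δ + w) - q
  have h1 := u_taylor a (a + u)
  rw [add_sub_cancel_left] at h1
  have h2 := steinG_taylor a b Δ u v w hΔ hw
  have h3 : |dp| ≤ 2 * |u| := by
    have := tanh_deriv_lip (a + u) a
    rwa [add_sub_cancel_left] at this
  have h4 : |dq| ≤ E * (2 * |u| + 2 * |v| + |w|) := abs_steinG_sub_le a b Δ u v w hΔ hw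
  have hq : |q| ≤ E := (stein_bounds hΔ a b).1
  have hp : |p| ≤ 1 := abs_one_sub_tanh_sq a
  have e : (1 - tanh (a + u) ^ 2) * steinG (a + u) (b + v) (Δ + w) - p * q
        - (uDeriv a * q + p * steinG' a b Δ) * u
        - p * steinGb a b Δ * v - p * steinGd a b Δ * w
      = (dp - uDeriv a * u) * q
        + p * (dq - steinG' a b Δ * u - steinGb a b Δ * v - steinGd a b Δ * w) + dp * dq := by
    simp only [dp, dq]
    ring
  rw [e]
  refine (abs_add_le _ _).trans ((add_le_add (abs_add_le _ _) le_rfl).trans ?_)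
  rw [abs_mul, abs_mul, abs_mul]
  have t1 : |dp - uDeriv a * u| * |q| ≤ 6 * u ^ 2 * E :=
    mul_le_mul h1 hq (abs_nonneg _) (by positivity)
  have t2 : |p| * |dq - steinG' a b Δ * u - steinGb a b Δ * v - steinGd a b Δ * w|
      ≤ 1 * (52 * E * (u ^ 2 + v ^ 2 + w ^ 2)) := mul_le_mul hp h2 (abs_nonneg _) zero_le_one
  have t3 : |dp| * |dq| ≤ 2 * |u| * (E * (2 * |u| + 2 * |v| + |w|)) :=
    mul_le_mul h3 h4 (abs_nonneg _) (by positivity)
  have hEp : 0 < E := exp_pos _
  have t4 : 2 * |u| * (2 * |u| + 2 * |v| + |w|) ≤ 8 * (u ^ 2 + v ^ 2 + w ^ 2) := by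
    nlinarith [sq_nonneg (|u| - |v|), sq_nonneg (|u| - |w|), sq_abs u, sq_abs v, sq_abs w]
  have t5 := mul_le_mul_of_nonneg_left t4 hEp.le
  have hu2 : u ^ 2 ≤ u ^ 2 + v ^ 2 + w ^ 2 := by linarith [sq_nonneg v, sq_nonneg w]
  have := mul_le_mul_of_nonneg_left hu2 hEp.le
  have : 0 ≤ E * (u ^ 2 + v ^ 2 + w ^ 2) := by positivity
  rw [gCst, ← hE]
  linarith

variable {ι : Type*} [Fintype ι] [DecidableEq ι] {β C : ℝ} {m : ℕ} {J : ι → ι → ℝ}
  {y : ι → ℝ} {x : ι → Bool}

lemma quart_const_field (s : (ι → Bool) → ℝ) :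
    quart (jac (fun z _ => s z) x) ≤ 8 * scGrad s x ^ 2 := by
  have h := quart_le_of_frob (jac (fun z (_ : ι) => s z) x) 0
  have h0 : quart (0 : Matrix ι ι ℝ) = 0 := by simp [quart]
  rw [sub_zero, h0, zero_add, ← scGrad_eq_frob] at h
  exact h

/-- The gradient of a smooth function of `ampZ k`, `ampZ (k+1)` and a scalar. -/
theorem smooth_pair (hG : GoodWords β m C J) {k : ℕ} (hk : k + 2 ≤ m) {R R' S G : ℝ}
    (h : ZGrad β J y x k R) (h' : ZGrad β J y x (k + 1) R') (s : (ι → Bool) → ℝ)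
    (hs : scGrad s x ≤ S) (f : ℝ → ℝ → ℝ → ℝ) (fa fb fd : ι → ℝ)
    (hfa : ∀ i, |fa i| ≤ G) (hfb : ∀ i, |fb i| ≤ G) (hfd : ∀ i, |fd i| ≤ G)
    (hf : ∀ i z, |f (ampZ β J y (spins z) k i) (ampZ β J y (spins z) (k + 1) i) (s z)
      - f (ampZ β J y (spins x) k i) (ampZ β J y (spins x) (k + 1) i) (s x)
      - fa i * (ampZ β J y (spins z) k i - ampZ β J y (spins x) k i)
      - fb i * (ampZ β J y (spins z) (k + 1) i - ampZ β J y (spins x) (k + 1) i)
      - fd i * (s z - s x)|
      ≤ G * ((ampZ β J y (spins z) k i - ampZ β J y (spins x) k i) ^ 2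
        + (ampZ β J y (spins z) (k + 1) i - ampZ β J y (spins x) (k + 1) i) ^ 2
        + (s z - s x) ^ 2)) :
    frob (jac (fun z i => f (ampZ β J y (spins z) k i) (ampZ β J y (spins z) (k + 1) i) (s z)) x
      - (Matrix.diagonal fa * (gradE β J y (spins x) k).mat J
        + Matrix.diagonal fb * (gradE β J y (spins x) (k + 1)).mat J))
      ≤ 4 * (12 * G ^ 2 * (zQuart β C k R + zQuart β C (k + 1) R' + 8 * S ^ 2)
        + G ^ 2 * (R + R' + S)) := by
  set u := fun z => ampZ β J y (spins z) k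
  set v := fun z => ampZ β J y (spins z) (k + 1)
  set w := fun z (_ : ι) => s z
  set Y := jac (fun z i => f (u z i) (v z i) (s z)) x
  have hcomp := jac_comp3 f u v w x fa fb fd hf
  have hw : quart (jac w x) ≤ 8 * S ^ 2 := (quart_const_field s).trans
    (mul_le_mul_of_nonneg_left (pow_le_pow_left₀ (scGrad_nonneg _ _) hs 2) (by norm_num))
  have h1 := hcomp.trans (mul_le_mul_of_nonneg_left (add_le_add
    (add_le_add (h.quart_le hG (by omega)) (h'.quart_le hG (by omega))) hw) (by positivity))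
  have h2 := (frob_diag_mul_le hfa (jac u x - (gradE β J y (spins x) k).mat J)).trans
    (mul_le_mul_of_nonneg_left h (sq_nonneg G))
  have h3 := (frob_diag_mul_le hfb (jac v x - (gradE β J y (spins x) (k + 1)).mat J)).trans
    (mul_le_mul_of_nonneg_left h' (sq_nonneg G))
  have h4 := (frob_diag_mul_le hfd (jac w x)).trans
    (mul_le_mul_of_nonneg_left ((scGrad_eq_frob s x).symm.le.trans hs) (sq_nonneg G))
  set e0 := jac (fun z i => f (u z i) (v z i) (w z i)) x
    - (Matrix.diagonal fa * jac u x + Matrix.diagonal fb * jac v x + Matrix.diagonal fd * jac w x)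
  set e1 := Matrix.diagonal fa * (jac u x - (gradE β J y (spins x) k).mat J)
  set e2 := Matrix.diagonal fb * (jac v x - (gradE β J y (spins x) (k + 1)).mat J)
  set e3 := Matrix.diagonal fd * jac w x
  have e : Y - (Matrix.diagonal fa * (gradE β J y (spins x) k).mat J
      + Matrix.diagonal fb * (gradE β J y (spins x) (k + 1)).mat J) = (e0 + e1) + (e2 + e3) := by
    simp only [Y, e0, e1, e2, e3, Matrix.mul_sub, w]
    abel
  rw [e]
  have := frob_add_le (e0 + e1) (e2 + e3)
  have := frob_add_le e0 e1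
  have := frob_add_le e2 e3
  linarith

/-- Action bound from the two-term gradient. -/
lemma act_pair (hG : GoodWords β m C J) (k : ℕ) {G S : ℝ}
    {fa fb : ι → ℝ} (hfa : ∀ i, |fa i| ≤ G) (hfb : ∀ i, |fb i| ≤ G) {Y : Matrix ι ι ℝ}
    (hY : frob (Y - (Matrix.diagonal fa * (gradE β J y (spins x) k).mat J
      + Matrix.diagonal fb * (gradE β J y (spins x) (k + 1)).mat J)) ≤ S) :
    Act (2 * (2 * (G ^ 2 * (max C 1 ^ (k + 1) * ((1 + β ^ 2) ^ k) ^ 2)
      + G ^ 2 * (max C 1 ^ (k + 2) * ((1 + β ^ 2) ^ (k + 1)) ^ 2)) + S)) Y := by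
  have h1 := (expr_act hG _ (deg_gradE β J y (spins x) k)
    (size_gradE β J y (spins x) (abs_spins_le x) k)).diag_mul hfa
  have h2 := (expr_act hG _ (deg_gradE β J y (spins x) (k + 1))
    (size_gradE β J y (spins x) (abs_spins_le x) (k + 1))).diag_mul hfb
  have := (h1.add h2).add (act_of_frob hY)
  rwa [add_sub_cancel] at this

lemma scGrad_const (c : ℝ) : scGrad (fun _ => c) x = 0 := by simp [scGrad, deriv2]

omit [DecidableEq ι] in
lemma qav_spins [Nonempty ι] (z : ι → Bool) : qav (spins z) = 1 := by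
  have hn : (Fintype.card ι : ℝ) ≠ 0 := by exact_mod_cast Fintype.card_ne_zero
  have h : ∀ i, spins z i ^ 2 = 1 := fun i => spin_sq (z i)
  simp [qav, avg, h, hn]

/-- The squared norms of the iterates have small gradients. -/
theorem exists_qgrad (β C : ℝ) (k : ℕ) : ∃ S, 0 ≤ S ∧ ∀ (ι : Type) [Fintype ι] [DecidableEq ι]
    [Nonempty ι] (m : ℕ) (J : ι → ι → ℝ) (y : ι → ℝ) (x : ι → Bool),
    k + 1 ≤ m → GoodWords β m C J →
      scGrad (fun z => qav (ampA β J y (spins z) k)) x ≤ S := by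
  cases k with
  | zero => exact ⟨0, le_rfl, fun ι _ _ _ m J y x _ _ => by simp [ampA, qav_spins, scGrad_const]⟩
  | succ j =>
    obtain ⟨R, hR0, hR⟩ := exists_zgrad β C j
    set K : ℝ := 2 ^ 2 * zAct β C j R
    set E : ℝ := 1296 * zQuart β C j R
    refine ⟨max (2 * (K + E)) 0, le_max_right _ _, fun ι _ _ _ m J y x hm hG => ?_⟩
    have h : ZGrad β J y x j R := hR ι m J y x (by omega) hG
    set u := fun z => ampZ β J y (spins z) j
    have hcomp := jac_comp3 (fun a _ _ => tanh a ^ 2) u u u x (fun i => -uDeriv (u x i))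
      (fun _ => 0) (fun _ => 0) (G := 6) (fun i z => by
        have h1 := u_taylor (u x i) (u z i)
        rw [abs_sub_comm] at h1
        have e : tanh (u z i) ^ 2 - tanh (u x i) ^ 2 - -uDeriv (u x i) * (u z i - u x i)
            - 0 * (u z i - u x i) - 0 * (u z i - u x i)
            = uDeriv (u x i) * (u z i - u x i) - (1 - tanh (u z i) ^ 2 - (1 - tanh (u x i) ^ 2)) :=
          by ring
        show |tanh (u z i) ^ 2 - tanh (u x i) ^ 2 - -uDeriv (u x i) * (u z i - u x i)
            - 0 * (u z i - u x i) - 0 * (u z i - u x i)| ≤ _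
        rw [e]
        nlinarith [sq_nonneg (u z i - u x i)])
    have hz : (Matrix.diagonal (fun _ : ι => (0 : ℝ))) = 0 := Matrix.diagonal_zero
    rw [hz, Matrix.zero_mul, add_zero, add_zero] at hcomp
    have hq := h.quart_le hG (by omega)
    have hA := ((h.act hG).diag_mul (G := 2) (e := fun i => -uDeriv (u x i))
      fun i => by rw [abs_neg]; exact abs_uDeriv_le _).add (act_of_frob (le_trans hcomp (le_trans
        (mul_le_mul_of_nonneg_left (add_le_add (add_le_add hq hq) hq) (by norm_num))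
        (le_of_eq (show _ = E by simp only [E]; ring)))))
    rw [add_sub_cancel] at hA
    have hK : 0 ≤ 2 * (K + E) :=
      (sum_nonneg fun _ _ => sq_nonneg _).trans (hA.row_le (Classical.arbitrary ι))
    refine le_trans ?_ (le_max_left _ _)
    exact scGrad_avg hK (fun z i => tanh (u z i) ^ 2) x hA

/-- The variance parameters have small gradients. -/
theorem exists_dgrad (β C : ℝ) (k : ℕ) : ∃ S, 0 ≤ S ∧ ∀ (ι : Type) [Fintype ι] [DecidableEq ι]
    [Nonempty ι] (m : ℕ) (J : ι → ι → ℝ) (y : ι → ℝ) (x : ι → Bool),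
    k + 2 ≤ m → GoodWords β m C J →
      scGrad (fun z => ampDelta β J y (spins z) k) x ≤ S ∧
      scGrad (fun z => qav (ampA β J y (spins z) k) - qav (ampA β J y (spins z) (k + 1))) x ≤ S ∧
      scGrad (fun z => onsager β (ampA β J y (spins z) k)) x ≤ S := by
  obtain ⟨S0, h00, h0⟩ := exists_qgrad β C k
  obtain ⟨S1, h10, h1⟩ := exists_qgrad β C (k + 1)
  set b := β ^ 2
  refine ⟨2 * (b ^ 2 + 1) * (S0 + S1), by positivity, fun ι _ _ _ m J y x hm hG => ?_⟩
  have a0 := h0 ι m J y x (by omega) hG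
  have a1 := h1 ι m J y x (by omega) hG
  have n0 := scGrad_nonneg (fun z => qav (ampA β J y (spins z) k)) x
  have n1 := scGrad_nonneg (fun z => qav (ampA β J y (spins z) (k + 1))) x
  have hb : 0 ≤ b ^ 2 := sq_nonneg _
  refine ⟨?_, ?_, ?_⟩
  · have := scGrad_add_le (fun z => qav (ampA β J y (spins z) k))
      (fun z => qav (ampA β J y (spins z) (k + 1))) x b (-b)
    have e : (fun z => ampDelta β J y (spins z) k) = fun z => b * qav (ampA β J y (spins z) k)
        + -b * qav (ampA β J y (spins z) (k + 1)) := by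
      funext z; simp only [ampDelta, b]; ring
    rw [e]
    rw [neg_sq] at this
    nlinarith
  · have := scGrad_add_le (fun z => qav (ampA β J y (spins z) k))
      (fun z => qav (ampA β J y (spins z) (k + 1))) x 1 (-1)
    have e : (fun z => qav (ampA β J y (spins z) k) - qav (ampA β J y (spins z) (k + 1)))
        = fun z => 1 * qav (ampA β J y (spins z) k) + -1 * qav (ampA β J y (spins z) (k + 1)) := by
      funext z; ring
    rw [e]
    rw [neg_sq, one_pow] at this
    nlinarith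
  · have := scGrad_add_le (fun z => qav (ampA β J y (spins z) k)) (fun _ => 1) x (-b) b
    have e : (fun z => onsager β (ampA β J y (spins z) k))
        = fun z => -b * qav (ampA β J y (spins z) k) + b * (fun _ => (1 : ℝ)) z := by
      funext z; simp only [onsager, b]; ring
    rw [e]
    rw [neg_sq, scGrad_const, mul_zero, add_zero] at this
    nlinarith

/-- The Stein weight at index `k`. -/
noncomputable def gF (β : ℝ) (J : ι → ι → ℝ) (y : ι → ℝ) (k : ℕ) (z : ι → Bool) (i : ι) : ℝ :=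
  steinG (ampZ β J y (spins z) k i) (ampZ β J y (spins z) (k + 1) i) (ampDelta β J y (spins z) k)

/-- Its `a`-partial. -/
noncomputable def gaF (β : ℝ) (J : ι → ι → ℝ) (y : ι → ℝ) (k : ℕ) (z : ι → Bool) (i : ι) : ℝ :=
  steinG' (ampZ β J y (spins z) k i) (ampZ β J y (spins z) (k + 1) i) (ampDelta β J y (spins z) k)

/-- Its `b`-partial. -/
noncomputable def gbF (β : ℝ) (J : ι → ι → ℝ) (y : ι → ℝ) (k : ℕ) (z : ι → Bool) (i : ι) : ℝ :=
  steinGb (ampZ β J y (spins z) k i) (ampZ β J y (spins z) (k + 1) i) (ampDelta β J y (spins z) k)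

/-- Gradients of the Stein weights. -/
theorem exists_ggrad (β C : ℝ) (k : ℕ) : ∃ S, 0 ≤ S ∧ ∀ (ι : Type) [Fintype ι] [DecidableEq ι]
    [Nonempty ι] (m : ℕ) (J : ι → ι → ℝ) (y : ι → ℝ) (x : ι → Bool),
    k + 2 ≤ m → GoodWords β m C J →
      frob (jac (gF β J y k) x
        - (Matrix.diagonal (gaF β J y k x) * (gradE β J y (spins x) k).mat J
          + Matrix.diagonal (gbF β J y k x) * (gradE β J y (spins x) (k + 1)).mat J)) ≤ S ∧
      Act S (jac (gF β J y k) x) ∧
      scGrad (fun z => avg fun i => (1 - tanh (ampZ β J y (spins z) k i) ^ 2) * gF β J y k z i) x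
        ≤ S ∧
      scGrad (fun z => avg fun i => 1 - tanh (ampZ β J y (spins z) k i) ^ 2) x ≤ S := by
  obtain ⟨R, hR0, hR⟩ := exists_zgrad β C k
  obtain ⟨R', hR'0, hR'⟩ := exists_zgrad β C (k + 1)
  obtain ⟨Sd, hSd0, hSd⟩ := exists_dgrad β C k
  set G := gCst β
  set E : ℝ := 4 * (12 * G ^ 2 * (zQuart β C k R + zQuart β C (k + 1) R' + 8 * Sd ^ 2)
    + G ^ 2 * (R + R' + Sd))
  set A : ℝ := 2 * (2 * (G ^ 2 * (max C 1 ^ (k + 1) * ((1 + β ^ 2) ^ k) ^ 2)
    + G ^ 2 * (max C 1 ^ (k + 2) * ((1 + β ^ 2) ^ (k + 1)) ^ 2)) + E)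
  refine ⟨max (max E A) 0, le_max_right _ _, fun ι _ _ _ m J y x hm hG => ?_⟩
  have h : ZGrad β J y x k R := hR ι m J y x (by omega) hG
  have h' : ZGrad β J y x (k + 1) R' := hR' ι m J y x (by omega) hG
  have hs := (hSd ι m J y x hm hG).1
  have hb : ∀ z i, |gF β J y k z i| ≤ exp (β ^ 2 / 2) ∧ |gaF β J y k z i| ≤ 2 * exp (β ^ 2 / 2) ∧
      |gbF β J y k z i| ≤ 2 * exp (β ^ 2 / 2) := fun z i => by
    obtain ⟨a, b, c, -⟩ := stein_bounds (abs_ampDelta_le β J y z k)
      (ampZ β J y (spins z) k i) (ampZ β J y (spins z) (k + 1) i)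
    exact ⟨a, b, c⟩
  have hE0 : 0 < exp (β ^ 2 / 2) := exp_pos _
  have hGE : 4 * exp (β ^ 2 / 2) ≤ G := by simp only [G, gCst]; linarith
  set D := fun z => ampDelta β J y (spins z) k
  set za := fun z => ampZ β J y (spins z) k
  set zb := fun z => ampZ β J y (spins z) (k + 1)
  have hw : ∀ z, |D x + (D z - D x)| ≤ β ^ 2 := fun z => by
    rw [add_sub_cancel]; exact abs_ampDelta_le β J y z k
  have p1 := smooth_pair hG hm h h' D hs steinG (gaF β J y k x) (gbF β J y k x)
    (fun i => steinGd (za x i) (zb x i) (D x)) (G := G)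
    (fun i => (hb x i).2.1.trans (by linarith)) (fun i => (hb x i).2.2.trans (by linarith))
    (fun i => ((stein_bounds (abs_ampDelta_le β J y x k) _ _).2.2.2).trans (by linarith))
    (fun i z => by
      have := steinG_taylor (za x i) (zb x i) (D x) (za z i - za x i) (zb z i - zb x i) (D z - D x)
        (abs_ampDelta_le β J y x k) (hw z)
      simp only [add_sub_cancel] at this
      refine this.trans (mul_le_mul_of_nonneg_right ?_ (by positivity))
      simp only [G, gCst]
      linarith)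
  have p2 := smooth_pair hG hm h h' D hs (fun a b d => (1 - tanh a ^ 2) * steinG a b d)
    (fun i => uDeriv (za x i) * gF β J y k x i + (1 - tanh (za x i) ^ 2) * gaF β J y k x i)
    (fun i => (1 - tanh (za x i) ^ 2) * gbF β J y k x i)
    (fun i => (1 - tanh (za x i) ^ 2) * steinGd (za x i) (zb x i) (D x)) (G := G)
    (fun i => by
      refine (abs_add_le _ _).trans ?_
      rw [abs_mul, abs_mul]
      have := mul_le_mul (abs_uDeriv_le (za x i)) (hb x i).1 (abs_nonneg _) two_pos.le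
      have := mul_le_mul (abs_one_sub_tanh_sq (za x i)) (hb x i).2.1 (abs_nonneg _) zero_le_one
      linarith)
    (fun i => by
      rw [abs_mul]
      have := mul_le_mul (abs_one_sub_tanh_sq (za x i)) (hb x i).2.2 (abs_nonneg _) zero_le_one
      linarith)
    (fun i => by
      rw [abs_mul]
      have := mul_le_mul (abs_one_sub_tanh_sq (za x i))
        (stein_bounds (abs_ampDelta_le β J y x k) (za x i) (zb x i)).2.2.2 (abs_nonneg _) zero_le_one
      linarith)
    (fun i z => by
      have := ug_taylor (za x i) (zb x i) (D x) (za z i - za x i) (zb z i - zb x i) (D z - D x)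
        (abs_ampDelta_le β J y x k) (hw z)
      simp only [add_sub_cancel] at this
      exact this)
  have p3 := smooth_pair hG hm h h' D hs (fun a _ _ => 1 - tanh a ^ 2)
    (fun i => uDeriv (za x i)) (fun _ => 0) (fun _ => 0) (G := G)
    (fun i => (abs_uDeriv_le _).trans (by linarith [gCst_ge β]))
    (fun i => by rw [abs_zero]; linarith [gCst_ge β])
    (fun i => by rw [abs_zero]; linarith [gCst_ge β])
    (fun i z => by
      simp only [zero_mul, sub_zero]
      refine (u_taylor (za x i) (za z i)).trans ?_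
      have := gCst_ge β
      nlinarith [sq_nonneg (za z i - za x i), sq_nonneg (zb z i - zb x i), sq_nonneg (D z - D x)])
  have hbig : E ≤ max (max E A) 0 := (le_max_left _ _).trans (le_max_left _ _)
  have hA : A ≤ max (max E A) 0 := (le_max_right _ _).trans (le_max_left _ _)
  have lift : ∀ Y : Matrix ι ι ℝ, Act A Y → Act (max (max E A) 0) Y := fun Y hY =>
    ⟨fun a => (hY.1 a).trans (mul_le_mul_of_nonneg_right hA (sum_nonneg fun _ _ => sq_nonneg _)),
     fun a => (hY.2 a).trans (mul_le_mul_of_nonneg_right hA (sum_nonneg fun _ _ => sq_nonneg _))⟩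
  refine ⟨p1.trans hbig, lift _ (act_pair hG k (fun i => (hb x i).2.1.trans (by linarith))
    (fun i => (hb x i).2.2.trans (by linarith)) p1), ?_, ?_⟩
  · refine scGrad_avg (le_max_right _ _) _ x (lift _ (act_pair hG k (fun i => ?_) (fun i => ?_) p2))
    · refine (abs_add_le _ _).trans ?_
      rw [abs_mul, abs_mul]
      have := mul_le_mul (abs_uDeriv_le (za x i)) (hb x i).1 (abs_nonneg _) two_pos.le
      have := mul_le_mul (abs_one_sub_tanh_sq (za x i)) (hb x i).2.1 (abs_nonneg _) zero_le_one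
      linarith
    · rw [abs_mul]
      have := mul_le_mul (abs_one_sub_tanh_sq (za x i)) (hb x i).2.2 (abs_nonneg _) zero_le_one
      linarith
  · exact scGrad_avg (le_max_right _ _) _ x (lift _ (act_pair hG k
      (fun i => (abs_uDeriv_le _).trans (by linarith [gCst_ge β]))
      (fun i => by rw [abs_zero]; linarith [gCst_ge β]) p3))

/-- The top scalars are bounded with small gradients. -/
theorem exists_tgrad (β C : ℝ) : ∀ k : ℕ, ∃ S, 0 ≤ S ∧ ∀ (ι : Type) [Fintype ι] [DecidableEq ι]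
    [Nonempty ι] (m : ℕ) (J : ι → ι → ℝ) (y : ι → ℝ) (x : ι → Bool),
    k + 2 ≤ m → GoodWords β m C J →
      (∀ z, |ampT β J y (spins z) k| ≤ S) ∧
      scGrad (fun z => ampT β J y (spins z) k) x ≤ S
  | 0 => by
    obtain ⟨S, hS0, hS⟩ := exists_ggrad β C 0
    refine ⟨max S 1, le_max_of_le_left hS0, fun ι _ _ _ m J y x hm hG => ⟨fun z => ?_, ?_⟩⟩
    · exact (abs_avg_le zero_le_one ((pi_norm_le_iff_of_nonneg zero_le_one).2
        fun i => abs_one_sub_tanh_sq _)).trans (le_max_right _ _)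
    · exact (hS ι m J y x hm hG).2.2.2.trans (le_max_left _ _)
  | k + 1 => by
    obtain ⟨St, hSt0, hSt⟩ := exists_tgrad β C k
    obtain ⟨Sg, hSg0, hSg⟩ := exists_ggrad β C k
    set G := exp (β ^ 2 / 2)
    set b := β ^ 2
    refine ⟨max (b * St * G) (2 * G ^ 2 * (2 * (b ^ 2 * St)) + 2 * (b * St) ^ 2 * Sg),
      le_max_of_le_left (by positivity), fun ι _ _ _ m J y x hm hG => ?_⟩
    have ht := hSt ι m J y x (by omega) hG
    have hg := (hSg ι m J y x (by omega) hG).2.2.1
    set s := fun z => b * ampT β J y (spins z) k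
    set t := fun z => avg fun i => (1 - tanh (ampZ β J y (spins z) k i) ^ 2) * gF β J y k z i
    have e : (fun z => ampT β J y (spins z) (k + 1)) = fun z => s z * t z := rfl
    have hs : ∀ z, |s z| ≤ b * St := fun z => by
      rw [abs_mul, abs_of_nonneg (sq_nonneg β)]
      exact mul_le_mul_of_nonneg_left (ht.1 z) (sq_nonneg β)
    have hG0 : 0 ≤ G := (exp_pos _).le
    have htb : ∀ z, |t z| ≤ G := fun z => abs_avg_le hG0
      ((pi_norm_le_iff_of_nonneg hG0).2 fun i => by
        rw [norm_eq_abs, abs_mul]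
        exact (mul_le_of_le_one_left (abs_nonneg _) (abs_one_sub_tanh_sq _)).trans
          (stein_bounds (abs_ampDelta_le β J y z k) _ _).1)
    refine ⟨fun z => ?_, ?_⟩
    · rw [congrFun e z, abs_mul]
      exact (mul_le_mul (hs z) (htb z) (abs_nonneg _) (by positivity)).trans (le_max_left _ _)
    · rw [e]
      refine (scGrad_mul s t x hs htb).trans ((add_le_add ?_ ?_).trans (le_max_right _ _))
      · refine mul_le_mul_of_nonneg_left ?_ (by positivity)
        have h2 := scGrad_add_le (fun z => ampT β J y (spins z) k) (fun _ => (0 : ℝ)) x b 0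
        simp only [zero_mul, add_zero, ne_eq, OfNat.ofNat_ne_zero, not_false_eq_true, zero_pow]
          at h2
        exact h2.trans (mul_le_mul_of_nonneg_left
          (mul_le_mul_of_nonneg_left ht.2 (sq_nonneg _)) two_pos.le)
      · exact mul_le_mul_of_nonneg_left hg (by positivity)

end Vale.Agent.P150.Beta1.Rule
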